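import Mathlib

/-!
Algebraic identities for the affine maximal equation.
-/

namespace Vale.Agent.P252

/-- the reduced equation `(*)`; `n = k + 1 + 2t(α+β)`, `m = k + 2tα`. -/
lemma star_identity_aux {k t α β β' m : ℝ} (hm : m ≠ 0) (hmk : m = k + 2 * t * α)
    (hode : 2 * t * β' = -2 * β + (1 + t * β) *
      (-k * β + α + (k + 3) * α * ((1 + 2 * t * β) / m))) :
    4 * t * ((-((k + 2) / 2) * (α * (k + 1 + 2 * t * (α + β)) / m)) ^ 2
      + -((k + 2) / 2) * (((1 / 2 * α * (β - α) * (k + 1 + 2 * t * (α + β))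
        + α * (2 * (α + β) + 2 * t * (1 / 2 * α * (β - α) + β'))) * m
        - α * (k + 1 + 2 * t * (α + β)) * (2 * α + 2 * t * (1 / 2 * α * (β - α))))
          / m ^ 2))
    + 2 * (-((k + 2) / 2) * (α * (k + 1 + 2 * t * (α + β)) / m))
        * (k + (k - 1) * t * β + 2 * (k + 2) * α * t)
    + (k + 2) * (k + 1) * α * (1 + t * β + α * t) = 0 := by
  have h2 : 2 * t * β' * m = -2 * β * m + (1 + t * β) *
      ((-k * β + α) * m + (k + 3) * α * (1 + 2 * t * β)) := by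
    rw [hode]
    field_simp
  have h3 : ∀ X : ℝ, X * m ^ 2 = 0 → X = 0 := fun X hX => by
    rcases mul_eq_zero.1 hX with h | h
    · exact h
    · exact absurd h (pow_ne_zero 2 hm)
  apply h3
  have e1 : (4 * t * ((-((k + 2) / 2) * (α * (k + 1 + 2 * t * (α + β)) / m)) ^ 2
      + -((k + 2) / 2) * (((1 / 2 * α * (β - α) * (k + 1 + 2 * t * (α + β))
        + α * (2 * (α + β) + 2 * t * (1 / 2 * α * (β - α) + β'))) * m
        - α * (k + 1 + 2 * t * (α + β)) * (2 * α + 2 * t * (1 / 2 * α * (β - α))))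
          / m ^ 2))
    + 2 * (-((k + 2) / 2) * (α * (k + 1 + 2 * t * (α + β)) / m))
        * (k + (k - 1) * t * β + 2 * (k + 2) * α * t)
    + (k + 2) * (k + 1) * α * (1 + t * β + α * t)) * m ^ 2
    = 4 * t * ((-((k + 2) / 2) * (α * (k + 1 + 2 * t * (α + β)))) ^ 2
      + -((k + 2) / 2) * (((1 / 2 * α * (β - α) * (k + 1 + 2 * t * (α + β))
        + α * (2 * (α + β) + 2 * t * (1 / 2 * α * (β - α) + β'))) * m
        - α * (k + 1 + 2 * t * (α + β)) * (2 * α + 2 * t * (1 / 2 * α * (β - α))))))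
    + 2 * (-((k + 2) / 2) * (α * (k + 1 + 2 * t * (α + β)))) * m
        * (k + (k - 1) * t * β + 2 * (k + 2) * α * t)
    + (k + 2) * (k + 1) * α * (1 + t * β + α * t) * m ^ 2 := by
    field_simp
  rw [e1]
  subst hmk
  linear_combination (-(k + 2) * 2 * t * α) * h2

lemma star_identity {k t α β β' : ℝ} (hm : k + 2 * t * α ≠ 0)
    (hode : 2 * t * β' = -2 * β + (1 + t * β) *
      (-k * β + α + (k + 3) * α * ((1 + 2 * t * β) / (k + 2 * t * α)))) :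
    4 * t * ((-((k + 2) / 2) * (α * (k + 1 + 2 * t * (α + β)) / (k + 2 * t * α))) ^ 2
      + -((k + 2) / 2) * (((1 / 2 * α * (β - α) * (k + 1 + 2 * t * (α + β))
        + α * (2 * (α + β) + 2 * t * (1 / 2 * α * (β - α) + β'))) * (k + 2 * t * α)
        - α * (k + 1 + 2 * t * (α + β)) * (2 * α + 2 * t * (1 / 2 * α * (β - α))))
          / (k + 2 * t * α) ^ 2))
    + 2 * (-((k + 2) / 2) * (α * (k + 1 + 2 * t * (α + β)) / (k + 2 * t * α)))
        * (k + (k - 1) * t * β + 2 * (k + 2) * α * t)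
    + (k + 2) * (k + 1) * α * (1 + t * β + α * t) = 0 :=
  star_identity_aux hm rfl hode

/-- the contraction of `H⁻¹` and `D²w`. -/
lemma sum_identity {K T α β ρ l l' x u OU M : ℝ} (hT : T = u ^ 2 - x ^ 2) (hT0 : T ≠ 0)
    (hα : α ≠ 0) (hu : u ≠ 0) (hM : M ≠ 0) (hMd : M = 1 + ρ * β)
    (hstar : 4 * ρ * (l ^ 2 + l') + 2 * l * (K + (K - 1) * ρ * β + 2 * (K + 2) * α * ρ)
      + (K + 2) * (K + 1) * α * (1 + ρ * β + α * ρ) = 0) :
    (u ^ 3 / T + x ^ 2 * α * ρ * u / (T * M)) * (OU * ((K + 2) * (1 + K * (x ^ 2 / u ^ 2))))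
    + 2 * ((x * u / (T * M)) * (2 * (OU * ((K + 2) * x * (l + K / 2 * (α * T / u ^ 2))))) * ρ)
    + K * ((u / (α * T)) * (2 * (OU * (l * u ^ 2 + (K + 2) / 2 * (α * T)))))
    + ρ * ((u / (α * T)) * (4 * (OU * ((l ^ 2 + l') * u ^ 2 + (K + 2) * l * α * T
          + (K + 2) / 4 * (α * (α + β) * T) + (K + 2) * K / 4 * (α ^ 2 * T ^ 2 / u ^ 2))))
        + (2 * (OU * (l * u ^ 2 + (K + 2) / 2 * (α * T)))) * (-β * u / (α * T * M)))
    + ρ ^ 2 * ((-β * u / (α * T * M)) * (4 * (OU * ((l ^ 2 + l') * u ^ 2 + (K + 2) * l * α * T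
          + (K + 2) / 4 * (α * (α + β) * T) + (K + 2) * K / 4 * (α ^ 2 * T ^ 2 / u ^ 2))))) = 0 := by
  have e : (u ^ 3 / T + x ^ 2 * α * ρ * u / (T * M)) * (OU * ((K + 2) * (1 + K * (x ^ 2 / u ^ 2))))
    + 2 * ((x * u / (T * M)) * (2 * (OU * ((K + 2) * x * (l + K / 2 * (α * T / u ^ 2))))) * ρ)
    + K * ((u / (α * T)) * (2 * (OU * (l * u ^ 2 + (K + 2) / 2 * (α * T)))))
    + ρ * ((u / (α * T)) * (4 * (OU * ((l ^ 2 + l') * u ^ 2 + (K + 2) * l * α * T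
          + (K + 2) / 4 * (α * (α + β) * T) + (K + 2) * K / 4 * (α ^ 2 * T ^ 2 / u ^ 2))))
        + (2 * (OU * (l * u ^ 2 + (K + 2) / 2 * (α * T)))) * (-β * u / (α * T * M)))
    + ρ ^ 2 * ((-β * u / (α * T * M)) * (4 * (OU * ((l ^ 2 + l') * u ^ 2 + (K + 2) * l * α * T
          + (K + 2) / 4 * (α * (α + β) * T) + (K + 2) * K / 4 * (α ^ 2 * T ^ 2 / u ^ 2)))))
    = (OU / (α * T * M * u)) * (α * (u ^ 2 * M + x ^ 2 * α * ρ) * ((K + 2) * (u ^ 2 + K * x ^ 2))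
      + α * x * 2 * (2 * ((K + 2) * x * (l * u ^ 2 + K / 2 * (α * T)))) * ρ
      + 2 * u ^ 2 * (l * u ^ 2 + (K + 2) / 2 * (α * T)) * (K * M - ρ * β)
      + 4 * ρ * (M - ρ * β) * ((l ^ 2 + l') * u ^ 4 + (K + 2) * l * α * T * u ^ 2
          + (K + 2) / 4 * (α * (α + β) * T) * u ^ 2 + (K + 2) * K / 4 * (α ^ 2 * T ^ 2))) := by
    field_simp
    ring
  rw [e]
  have e2 : (α * (u ^ 2 * M + x ^ 2 * α * ρ) * ((K + 2) * (u ^ 2 + K * x ^ 2))
      + α * x * 2 * (2 * ((K + 2) * x * (l * u ^ 2 + K / 2 * (α * T)))) * ρ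
      + 2 * u ^ 2 * (l * u ^ 2 + (K + 2) / 2 * (α * T)) * (K * M - ρ * β)
      + 4 * ρ * (M - ρ * β) * ((l ^ 2 + l') * u ^ 4 + (K + 2) * l * α * T * u ^ 2
          + (K + 2) / 4 * (α * (α + β) * T) * u ^ 2 + (K + 2) * K / 4 * (α ^ 2 * T ^ 2))) = 0 := by
    subst hMd hT
    linear_combination (u ^ 4) * hstar
  rw [e2, mul_zero]

/-- entries of the inverse -/
lemma inv_identities {T α β ρ x u M : ℝ} (hT0 : T ≠ 0)
    (hα : α ≠ 0) (hu : u ≠ 0) (hM : M ≠ 0) (hMd : M = 1 + ρ * β) :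
    (T / u ^ 3) * (u ^ 3 / T + x ^ 2 * α * ρ * u / (T * M))
      + (-(x * α * T) / u ^ 3) * (x * u / (T * M)) * ρ = 1 ∧
    (T / u ^ 3) * (x * u / (T * M)) + (-(x * α * T) / u ^ 3) *
      (u / (α * T) + (-β * u / (α * T * M)) * ρ) = 0 ∧
    (-(x * α * T) / u ^ 3) * (u ^ 3 / T + x ^ 2 * α * ρ * u / (T * M)) +
      (α * T / u + (α * β * T / u + α ^ 2 * T * x ^ 2 / u ^ 3) * ρ) * (x * u / (T * M)) = 0 ∧
    (-(x * α * T) / u ^ 3) * (x * u / (T * M)) + (α * T / u) * (-β * u / (α * T * M)) +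
      (α * β * T / u + α ^ 2 * T * x ^ 2 / u ^ 3) * (u / (α * T)) +
      (α * β * T / u + α ^ 2 * T * x ^ 2 / u ^ 3) * (-β * u / (α * T * M)) * ρ = 0 ∧
    (α * T / u) * (u / (α * T)) = 1 := by
  refine ⟨?_, ?_, ?_, ?_, ?_⟩
  · field_simp
    ring
  · field_simp
    rw [hMd]; ring
  · field_simp
    rw [hMd]; ring
  · field_simp
    rw [hMd]; ring
  · field_simp

end Vale.Agent.P252
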