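import Mathlib

/-!
The averaging operator `φ ↦ ∫₀¹ σ^p φ (x σ²) dσ`.
-/

open Filter Topology Set MeasureTheory

namespace Vale.Agent.P252

/-- averaging operator -/
noncomputable def avg (p : ℕ) (φ : ℝ → ℝ) (x : ℝ) : ℝ :=
  ∫ σ in (0:ℝ)..1, σ ^ p * φ (x * σ ^ 2)

/-- compact neighbourhoods inside `Ioi (-δ)` -/
lemma exists_Icc_nhds {δ : ℝ} (hδ : 0 < δ) {x : ℝ} (hx : -δ < x) :
    ∃ a b : ℝ, -δ < a ∧ a < x ∧ a < 0 ∧ x < b ∧ 0 < b := by
  refine ⟨(-δ + min x 0) / 2, |x| + 1, ?_, ?_, ?_, ?_, by positivity⟩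
  · have : -δ < min x 0 := lt_min hx (by linarith)
    linarith
  · have h1 : -δ < min x 0 := lt_min hx (by linarith)
    have h2 := min_le_left x 0
    linarith
  · have h2 := min_le_right x 0
    linarith
  · linarith [le_abs_self x]

lemma mul_sq_mem {a b x σ : ℝ} (ha : a < 0) (hb : 0 < b) (hx : x ∈ Icc a b)
    (h0 : 0 ≤ σ) (h1 : σ ≤ 1) : x * σ ^ 2 ∈ Icc a b := by
  have h2 : σ ^ 2 ≤ 1 := pow_le_one₀ h0 h1
  have h3 : 0 ≤ σ ^ 2 := by positivity
  obtain ⟨hx1, hx2⟩ := hx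
  constructor <;> nlinarith

lemma continuousOn_integrand {a b x : ℝ} (ha : a < 0) (hb : 0 < b) (hx : x ∈ Icc a b)
    (p : ℕ) {φ : ℝ → ℝ} (hφ : ContinuousOn φ (Icc a b)) :
    ContinuousOn (fun σ : ℝ => σ ^ p * φ (x * σ ^ 2)) (Icc 0 1) := by
  refine ContinuousOn.mul (by fun_prop) ?_
  refine hφ.comp (by fun_prop) ?_
  intro σ hσ
  exact mul_sq_mem ha hb hx hσ.1 hσ.2

lemma hasDerivAt_avg {δ : ℝ} (hδ : 0 < δ) (p : ℕ) {φ φ' : ℝ → ℝ}
    (hφ : ∀ x, -δ < x → HasDerivAt φ (φ' x) x) (hφ' : ContinuousOn φ' (Ioi (-δ)))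
    {x : ℝ} (hx : -δ < x) :
    HasDerivAt (avg p φ) (avg (p + 2) φ' x) x := by
  obtain ⟨a, b, h1, h2, h3, h4, h5⟩ := exists_Icc_nhds hδ hx
  have hsub : Icc a b ⊆ Ioi (-δ) := fun z hz => lt_of_lt_of_le h1 hz.1
  have hφc : ContinuousOn φ (Icc a b) := fun z hz => (hφ z (hsub hz)).continuousAt.continuousWithinAt
  have hφ'c : ContinuousOn φ' (Icc a b) := hφ'.mono hsub
  obtain ⟨C, hC⟩ := isCompact_Icc.exists_bound_of_continuousOn hφ'c
  have hC0 : 0 ≤ C := (norm_nonneg _).trans (hC x ⟨h2.le, h4.le⟩)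
  have hxm : x ∈ Icc a b := ⟨h2.le, h4.le⟩
  have hu : uIoc (0:ℝ) 1 = Ioc 0 1 := uIoc_of_le zero_le_one
  have key := intervalIntegral.hasDerivAt_integral_of_dominated_loc_of_deriv_le
    (μ := volume) (a := (0:ℝ)) (b := 1) (s := Ioo a b) (x₀ := x)
    (F := fun x σ => σ ^ p * φ (x * σ ^ 2)) (F' := fun x σ => σ ^ (p + 2) * φ' (x * σ ^ 2))
    (bound := fun _ => C) (Ioo_mem_nhds h2 h4) ?_ ?_ ?_ ?_ ?_ ?_
  · exact key.2
  · filter_upwards [Ioo_mem_nhds h2 h4] with z hz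
    rw [hu]
    refine ((continuousOn_integrand h3 h5 ⟨hz.1.le, hz.2.le⟩ p hφc).mono
      Ioc_subset_Icc_self).aestronglyMeasurable measurableSet_Ioc
  · refine ContinuousOn.intervalIntegrable ?_
    rw [uIcc_of_le zero_le_one]
    exact continuousOn_integrand h3 h5 hxm p hφc
  · rw [hu]
    exact ((continuousOn_integrand h3 h5 hxm (p + 2) hφ'c).mono
      Ioc_subset_Icc_self).aestronglyMeasurable measurableSet_Ioc
  · refine Eventually.of_forall fun σ hσ z hz => ?_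
    rw [hu] at hσ
    have h0 : 0 ≤ σ := hσ.1.le
    have hz' := mul_sq_mem h3 h5 ⟨hz.1.le, hz.2.le⟩ h0 hσ.2
    have hb := hC _ hz'
    rw [norm_mul, norm_pow, Real.norm_of_nonneg h0]
    have : σ ^ (p + 2) ≤ 1 := pow_le_one₀ h0 hσ.2
    calc σ ^ (p + 2) * ‖φ' (z * σ ^ 2)‖ ≤ 1 * C := by gcongr
      _ = C := one_mul _
  · exact continuous_const.intervalIntegrable _ _
  · refine Eventually.of_forall fun σ hσ z hz => ?_
    rw [hu] at hσ
    have h0 : 0 ≤ σ := hσ.1.le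
    have hz' := mul_sq_mem h3 h5 ⟨hz.1.le, hz.2.le⟩ h0 hσ.2
    have hd := hφ _ (hsub hz')
    have h6 : HasDerivAt (fun z : ℝ => z * σ ^ 2) (σ ^ 2) z := by
      simpa using (hasDerivAt_id z).mul_const (σ ^ 2)
    have h7 := (hd.comp z h6).const_mul (σ ^ p)
    refine h7.congr_deriv ?_
    ring

lemma continuousOn_avg {δ : ℝ} (hδ : 0 < δ) (p : ℕ) {φ : ℝ → ℝ}
    (hφ : ContinuousOn φ (Ioi (-δ))) : ContinuousOn (avg p φ) (Ioi (-δ)) := by
  intro x hx
  obtain ⟨a, b, h1, h2, h3, h4, h5⟩ := exists_Icc_nhds hδ hx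
  have hsub : Icc a b ⊆ Ioi (-δ) := fun z hz => lt_of_lt_of_le h1 hz.1
  have hφc : ContinuousOn φ (Icc a b) := hφ.mono hsub
  have hab : a ≤ b := by linarith
  have hext : Continuous (IccExtend hab ((Icc a b).domRestrict φ)) :=
    (continuousOn_iff_continuous_domRestrict.1 hφc).Icc_extend'
  have hcont : Continuous fun x => ∫ σ in (0:ℝ)..1,
      σ ^ p * (IccExtend hab ((Icc a b).domRestrict φ)) (x * σ ^ 2) := by
    refine intervalIntegral.continuous_parametric_intervalIntegral_of_continuous ?_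
      continuous_const
    simp only [Function.uncurry_def]
    fun_prop
  refine ContinuousAt.continuousWithinAt ?_
  refine (hcont.continuousAt (x := x)).congr ?_
  filter_upwards [Ioo_mem_nhds h2 h4] with z hz
  unfold avg
  refine intervalIntegral.integral_congr fun σ hσ => ?_
  rw [uIcc_of_le zero_le_one] at hσ
  have hz' := mul_sq_mem h3 h5 ⟨hz.1.le, hz.2.le⟩ hσ.1 hσ.2
  change σ ^ p * (IccExtend hab ((Icc a b).domRestrict φ)) (z * σ ^ 2) = σ ^ p * φ (z * σ ^ 2)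
  rw [IccExtend_of_mem hab _ hz']
  rfl

lemma contDiffOn_avg {δ : ℝ} (hδ : 0 < δ) (n : ℕ) : ∀ (p : ℕ) (φ : ℝ → ℝ),
    ContDiffOn ℝ n φ (Ioi (-δ)) → ContDiffOn ℝ n (avg p φ) (Ioi (-δ)) := by
  induction n with
  | zero =>
    intro p φ h
    rw [Nat.cast_zero, contDiffOn_zero] at h ⊢
    exact continuousOn_avg hδ p h
  | succ n ih =>
    intro p φ h
    have hcast : ((n + 1 : ℕ) : WithTop ℕ∞) = (n : WithTop ℕ∞) + 1 := by norm_cast
    rw [hcast] at h ⊢
    rw [contDiffOn_succ_iff_deriv_of_isOpen isOpen_Ioi] at h ⊢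
    obtain ⟨h1, -, h3⟩ := h
    have hd : ∀ x, -δ < x → HasDerivAt φ (deriv φ x) x := fun x hx =>
      ((h1 x hx).differentiableAt (isOpen_Ioi.mem_nhds hx)).hasDerivAt
    have hd2 : ∀ x, -δ < x → HasDerivAt (avg p φ) (avg (p + 2) (deriv φ) x) x := fun x hx =>
      hasDerivAt_avg hδ p hd h3.continuousOn hx
    refine ⟨fun x hx => (hd2 x hx).differentiableAt.differentiableWithinAt, ?_, ?_⟩
    · intro h; exact absurd h (by simp)
    · refine (ih (p + 2) (deriv φ) h3).congr ?_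
      intro x hx
      exact (hd2 x hx).deriv

/-- integration by parts -/
lemma avg_ibp {δ : ℝ} (hδ : 0 < δ) (p : ℕ) {φ φ' : ℝ → ℝ}
    (hφ : ∀ x, -δ < x → HasDerivAt φ (φ' x) x) (hφ' : ContinuousOn φ' (Ioi (-δ)))
    {x : ℝ} (hx : -δ < x) :
    2 * x * avg (p + 2) φ' x = φ x - (p + 1) * avg p φ x := by
  obtain ⟨a, b, h1, h2, h3, h4, h5⟩ := exists_Icc_nhds hδ hx
  have hsub : Icc a b ⊆ Ioi (-δ) := fun z hz => lt_of_lt_of_le h1 hz.1
  have hφc : ContinuousOn φ (Icc a b) := fun z hz => (hφ z (hsub hz)).continuousAt.continuousWithinAt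
  have hφ'c : ContinuousOn φ' (Icc a b) := hφ'.mono hsub
  have hxm : x ∈ Icc a b := ⟨h2.le, h4.le⟩
  have hi1 : IntervalIntegrable (fun σ : ℝ => σ ^ p * φ (x * σ ^ 2)) volume 0 1 := by
    refine ContinuousOn.intervalIntegrable ?_
    rw [uIcc_of_le zero_le_one]
    exact continuousOn_integrand h3 h5 hxm p hφc
  have hi2 : IntervalIntegrable (fun σ : ℝ => σ ^ (p + 2) * φ' (x * σ ^ 2)) volume 0 1 := by
    refine ContinuousOn.intervalIntegrable ?_
    rw [uIcc_of_le zero_le_one]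
    exact continuousOn_integrand h3 h5 hxm (p + 2) hφ'c
  have hd : ∀ σ ∈ uIcc (0:ℝ) 1, HasDerivAt (fun σ : ℝ => σ ^ (p + 1) * φ (x * σ ^ 2))
      ((p + 1) * (σ ^ p * φ (x * σ ^ 2)) + 2 * x * (σ ^ (p + 2) * φ' (x * σ ^ 2))) σ := by
    intro σ hσ
    rw [uIcc_of_le zero_le_one] at hσ
    have hz' := mul_sq_mem h3 h5 hxm hσ.1 hσ.2
    have hd1 := hφ _ (hsub hz')
    have hd2 : HasDerivAt (fun σ : ℝ => x * σ ^ 2) (x * (2 * σ)) σ := by
      simpa using (hasDerivAt_pow 2 σ).const_mul x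
    have hd3 : HasDerivAt (fun σ : ℝ => σ ^ (p + 1)) ((p + 1) * σ ^ p) σ := by
      simpa using hasDerivAt_pow (p + 1) σ
    refine (hd3.mul (hd1.comp σ hd2)).congr_deriv ?_
    simp only [Function.comp_apply]
    ring
  have hint := intervalIntegral.integral_eq_sub_of_hasDerivAt hd
    ((hi1.const_mul _).add (hi2.const_mul _))
  rw [intervalIntegral.integral_add (hi1.const_mul _) (hi2.const_mul _),
    intervalIntegral.integral_const_mul, intervalIntegral.integral_const_mul] at hint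
  unfold avg
  simp at hint
  linarith

end Vale.Agent.P252
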