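import Mathlib

/-!
Definitions for the affine maximal equation on `ℝⁿ`.
-/

namespace Vale.Agent.P252

/-- The Hessian matrix `D²u(x)` of a function `u : ℝⁿ → ℝ`; its `(i,j)` entry is
`∂ⱼ(∂ᵢu)(x)`. -/
noncomputable def hessian {n : ℕ} (u : EuclideanSpace ℝ (Fin n) → ℝ)
    (x : EuclideanSpace ℝ (Fin n)) : Matrix (Fin n) (Fin n) ℝ :=
  Matrix.of fun i j => fderiv ℝ
    (fun y => fderiv ℝ u y (EuclideanSpace.single i (1 : ℝ))) x (EuclideanSpace.single j (1 : ℝ))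

/-- `U^{ij} = det(D²u) (D²u)⁻¹_{ij}`. -/
noncomputable def cofactorMatrix {n : ℕ} (u : EuclideanSpace ℝ (Fin n) → ℝ)
    (x : EuclideanSpace ℝ (Fin n)) : Matrix (Fin n) (Fin n) ℝ :=
  (hessian u x).det • (hessian u x)⁻¹

/-- `w = (det D²u)^{-(n+1)/(n+2)}`. -/
noncomputable def wFun {n : ℕ} (u : EuclideanSpace ℝ (Fin n) → ℝ)
    (x : EuclideanSpace ℝ (Fin n)) : ℝ :=
  (hessian u x).det ^ (-(((n : ℝ) + 1) / ((n : ℝ) + 2)))

/-- The affine maximal equation `∑ U^{ij} ∂ᵢⱼ w = 0` at every point of `ℝⁿ`. -/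
def SolvesAM {n : ℕ} (u : EuclideanSpace ℝ (Fin n) → ℝ) : Prop :=
  ∀ x, ∑ i, ∑ j, cofactorMatrix u x i j * hessian (wFun u) x i j = 0

end Vale.Agent.P252
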