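import Mathlib

/-!
Linear algebra of the matrices `a e₀e₀ᵀ + b (e₀zᵀ + z e₀ᵀ) + c I' + d z zᵀ`.
-/

open Matrix Finset

namespace Vale.Agent.P252

variable {k : ℕ}

/-- the block matrix with corner `a`, border `b z` and lower block `c I + d z zᵀ` -/
def Mz (z : Fin k → ℝ) (a b c d : ℝ) : Matrix (Fin (k + 1)) (Fin (k + 1)) ℝ :=
  Matrix.of fun i j => Fin.cases (Fin.cases a (fun j => b * z j) j)
    (fun i => Fin.cases (b * z i) (fun j => (if i = j then c else 0) + d * (z i * z j)) j) i

@[simp] lemma Mz_zero_zero (z : Fin k → ℝ) (a b c d : ℝ) : Mz z a b c d 0 0 = a := rfl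
@[simp] lemma Mz_zero_succ (z : Fin k → ℝ) (a b c d : ℝ) (j : Fin k) :
    Mz z a b c d 0 j.succ = b * z j := rfl
@[simp] lemma Mz_succ_zero (z : Fin k → ℝ) (a b c d : ℝ) (i : Fin k) :
    Mz z a b c d i.succ 0 = b * z i := rfl
@[simp] lemma Mz_succ_succ (z : Fin k → ℝ) (a b c d : ℝ) (i j : Fin k) :
    Mz z a b c d i.succ j.succ = (if i = j then c else 0) + d * (z i * z j) := rfl

lemma Mz_mul_eq_one (z : Fin k → ℝ) {a b c d a' b' c' d' r : ℝ} (hr : ∑ i, z i ^ 2 = r)
    (h1 : a * a' + b * b' * r = 1) (h2 : a * b' + b * (c' + d' * r) = 0)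
    (h3 : b * a' + (c + d * r) * b' = 0) (h4 : b * b' + c * d' + d * c' + d * d' * r = 0)
    (h5 : c * c' = 1) : Mz z a b c d * Mz z a' b' c' d' = 1 := by
  ext i j
  rw [Matrix.mul_apply, Fin.sum_univ_succ]
  refine Fin.cases ?_ (fun i => ?_) i <;> refine Fin.cases ?_ (fun j => ?_) j
  · simp only [Mz_zero_zero, Mz_zero_succ, Mz_succ_zero, one_apply_eq]
    have : ∑ x, b * z x * (b' * z x) = b * b' * r := by
      rw [← hr, Finset.mul_sum]; refine Finset.sum_congr rfl fun x _ => by ring
    rw [this, h1]
  · simp only [Mz_zero_zero, Mz_zero_succ, Mz_succ_succ]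
    rw [Matrix.one_apply_ne (Fin.succ_ne_zero j).symm]
    have : ∑ x, b * z x * ((if x = j then c' else 0) + d' * (z x * z j))
        = b * c' * z j + b * d' * r * z j := by
      have e : ∀ x, b * z x * ((if x = j then c' else 0) + d' * (z x * z j)) =
          (if x = j then b * c' * z j else 0) + b * d' * z j * z x ^ 2 := by
        intro x
        by_cases hx : x = j
        · subst hx; simp only [if_true]; ring
        · simp only [if_neg hx]; ring
      simp_rw [e]
      rw [Finset.sum_add_distrib, Finset.sum_ite_eq' , ← Finset.mul_sum, hr]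
      simp; ring
    rw [this]
    linear_combination z j * h2
  · simp only [Mz_zero_zero, Mz_succ_zero, Mz_succ_succ]
    rw [Matrix.one_apply_ne (Fin.succ_ne_zero i)]
    have : ∑ x, ((if i = x then c else 0) + d * (z i * z x)) * (b' * z x)
        = c * b' * z i + d * b' * r * z i := by
      have e : ∀ x, ((if i = x then c else 0) + d * (z i * z x)) * (b' * z x) =
          (if i = x then c * b' * z i else 0) + d * b' * z i * z x ^ 2 := by
        intro x
        by_cases hx : i = x
        · subst hx; simp only [if_true]; ring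
        · simp only [if_neg hx]; ring
      simp_rw [e]
      rw [Finset.sum_add_distrib, Finset.sum_ite_eq, ← Finset.mul_sum, hr]
      simp; ring
    rw [this]
    linear_combination z i * h3
  · simp only [Mz_succ_zero, Mz_zero_succ, Mz_succ_succ]
    have : ∑ x, ((if i = x then c else 0) + d * (z i * z x)) *
        ((if x = j then c' else 0) + d' * (z x * z j))
        = (if i = j then c * c' else 0) + (c * d' + d * c' + d * d' * r) * (z i * z j) := by
      have e : ∀ x, ((if i = x then c else 0) + d * (z i * z x)) *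
          ((if x = j then c' else 0) + d' * (z x * z j)) =
          (if i = x then (if i = j then c * c' else 0) else 0)
          + (if i = x then c * d' * (z i * z j) else 0)
          + (if x = j then d * c' * (z i * z j) else 0) + d * d' * (z i * z j) * z x ^ 2 := by
        intro x
        by_cases hx : i = x
        · subst hx
          by_cases hj : i = j
          · subst hj; simp only [if_true]; ring
          · simp only [if_neg hj, if_true]; ring
        · by_cases hj : x = j
          · subst hj; simp only [if_neg hx, if_true]; ring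
          · simp only [if_neg hj, if_neg hx]; ring
      simp_rw [e]
      rw [Finset.sum_add_distrib, Finset.sum_add_distrib, Finset.sum_add_distrib,
        Finset.sum_ite_eq, Finset.sum_ite_eq, Finset.sum_ite_eq', ← Finset.mul_sum, hr]
      simp; ring
    rw [this]
    by_cases hij : i = j
    · subst hij
      rw [one_apply_eq, if_pos rfl, h5]
      linear_combination (z i * z i) * h4
    · rw [if_neg hij, Matrix.one_apply_ne (fun h => hij (Fin.succ_injective _ h))]
      linear_combination (z i * z j) * h4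

lemma Mz_pair (z : Fin k → ℝ) {a b c d a' b' c' d' r : ℝ} (hr : ∑ i, z i ^ 2 = r) :
    ∑ i, ∑ j, Mz z a b c d i j * Mz z a' b' c' d' i j =
      a * a' + 2 * (b * b' * r) + k * (c * c') + r * (c * d' + c' * d) + r ^ 2 * (d * d') := by
  rw [Fin.sum_univ_succ]
  have e0 : ∑ j, Mz z a b c d 0 j * Mz z a' b' c' d' 0 j = a * a' + b * b' * r := by
    rw [Fin.sum_univ_succ]
    simp only [Mz_zero_zero, Mz_zero_succ]
    have : ∑ x, b * z x * (b' * z x) = b * b' * r := by
      rw [← hr, Finset.mul_sum]; refine Finset.sum_congr rfl fun x _ => by ring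
    rw [this]
  have ei : ∀ i : Fin k, ∑ j, Mz z a b c d i.succ j * Mz z a' b' c' d' i.succ j =
      b * b' * z i ^ 2 + (c * c' + (c * d' + c' * d) * z i ^ 2 + d * d' * r * z i ^ 2) := by
    intro i
    rw [Fin.sum_univ_succ]
    simp only [Mz_succ_zero, Mz_succ_succ]
    have : ∑ x, ((if i = x then c else 0) + d * (z i * z x)) *
        ((if i = x then c' else 0) + d' * (z i * z x)) =
        c * c' + (c * d' + c' * d) * z i ^ 2 + d * d' * r * z i ^ 2 := by
      have e : ∀ x, ((if i = x then c else 0) + d * (z i * z x)) *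
          ((if i = x then c' else 0) + d' * (z i * z x)) =
          (if i = x then c * c' + (c * d' + c' * d) * z i ^ 2 else 0)
            + d * d' * z i ^ 2 * z x ^ 2 := by
        intro x
        by_cases hx : i = x
        · subst hx; simp only [if_true]; ring
        · simp only [if_neg hx]; ring
      simp_rw [e]
      rw [Finset.sum_add_distrib, Finset.sum_ite_eq, ← Finset.mul_sum, hr]
      simp; ring
    rw [this]; ring
  rw [e0]
  simp_rw [ei]
  rw [Finset.sum_add_distrib, Finset.sum_add_distrib, Finset.sum_add_distrib,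
    Finset.sum_const, Finset.card_univ, Fintype.card_fin, nsmul_eq_mul]
  simp only [← Finset.mul_sum, hr]
  ring

lemma Mz_det (z : Fin k → ℝ) {a b c d r : ℝ} (hr : ∑ i, z i ^ 2 = r) (hc : c ≠ 0) :
    (Mz z a b c d).det * c = c ^ k * (a * (c + d * r) - b ^ 2 * r) := by
  set e0 : Fin (k + 1) → ℝ := Fin.cons 1 0 with he0
  set zt : Fin (k + 1) → ℝ := Fin.cons 0 z with hzt
  set P : Matrix (Fin (k + 1)) (Fin 2) ℝ := Matrix.of fun i j => if j = 0 then e0 i else zt i
    with hP
  set Q : Matrix (Fin 2) (Fin (k + 1)) ℝ := Matrix.of fun i j =>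
    if i = 0 then c⁻¹ * ((a - c) * e0 j + b * zt j) else c⁻¹ * (b * e0 j + d * zt j) with hQ
  have hM : Mz z a b c d = c • (1 + P * Q) := by
    ext i j
    rw [Matrix.smul_apply, Matrix.add_apply, Matrix.mul_apply, Fin.sum_univ_two]
    refine Fin.cases ?_ (fun i => ?_) i <;> refine Fin.cases ?_ (fun j => ?_) j
    · simp [hP, hQ, he0, hzt]; field_simp; ring
    · rw [Matrix.one_apply_ne (Fin.succ_ne_zero j).symm]
      simp [hP, hQ, he0, hzt]; field_simp
    · rw [Matrix.one_apply_ne (Fin.succ_ne_zero i)]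
      simp [hP, hQ, he0, hzt]; field_simp
    · by_cases hij : i = j
      · subst hij
        simp [hP, hQ, he0, hzt]; field_simp
      · rw [Matrix.one_apply_ne (fun h => hij (Fin.succ_injective _ h))]
        simp [hP, hQ, he0, hzt, hij]; field_simp
  have hQP : (1 + Q * P).det = (a * (c + d * r) - b ^ 2 * r) / c ^ 2 := by
    have h00 : (Q * P) 0 0 = c⁻¹ * (a - c) := by
      rw [Matrix.mul_apply, Fin.sum_univ_succ]
      simp [hP, hQ, he0, hzt]
    have h01 : (Q * P) 0 1 = c⁻¹ * b * r := by
      rw [Matrix.mul_apply, Fin.sum_univ_succ]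
      simp [hP, hQ, he0, hzt]
      rw [← hr, Finset.mul_sum]; refine Finset.sum_congr rfl fun x _ => by ring
    have h10 : (Q * P) 1 0 = c⁻¹ * b := by
      rw [Matrix.mul_apply, Fin.sum_univ_succ]
      simp [hP, hQ, he0, hzt]
    have h11 : (Q * P) 1 1 = c⁻¹ * d * r := by
      rw [Matrix.mul_apply, Fin.sum_univ_succ]
      simp [hP, hQ, he0, hzt]
      rw [← hr, Finset.mul_sum]; refine Finset.sum_congr rfl fun x _ => by ring
    rw [Matrix.det_fin_two, Matrix.add_apply, Matrix.add_apply, Matrix.add_apply,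
      Matrix.add_apply, h00, h01, h10, h11]
    simp
    field_simp
    ring
  rw [hM, Matrix.det_smul, Matrix.det_one_add_mul_comm, hQP, Fintype.card_fin]
  field_simp
  ring

lemma Mz_isHermitian (z : Fin k → ℝ) (a b c d : ℝ) : (Mz z a b c d).IsHermitian := by
  ext i j
  rw [Matrix.conjTranspose_apply]
  refine Fin.cases ?_ (fun i => ?_) i <;> refine Fin.cases ?_ (fun j => ?_) j
  · simp
  · simp
  · simp
  · by_cases hij : i = j
    · subst hij; simp
    · have hji : j ≠ i := fun h => hij h.symm
      simp [hij, hji, mul_comm (z i) (z j)]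

lemma Mz_quad (z : Fin k → ℝ) (a b c d : ℝ) (v : Fin (k + 1) → ℝ) :
    star v ⬝ᵥ (Mz z a b c d *ᵥ v) = a * v 0 ^ 2 + 2 * b * v 0 * (∑ i, z i * v (Fin.succ i))
      + c * (∑ i, v (Fin.succ i) ^ 2) + d * (∑ i, z i * v (Fin.succ i)) ^ 2 := by
  have h1 : ∀ i, (Mz z a b c d *ᵥ v) i = ∑ j, Mz z a b c d i j * v j := fun i => rfl
  have h0 : (Mz z a b c d *ᵥ v) 0 = a * v 0 + b * (∑ i, z i * v (Fin.succ i)) := by
    rw [h1, Fin.sum_univ_succ]
    simp only [Mz_zero_zero, Mz_zero_succ]
    rw [Finset.mul_sum]
    congr 1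
    exact Finset.sum_congr rfl fun x _ => by ring
  have hi : ∀ i : Fin k, (Mz z a b c d *ᵥ v) i.succ = b * z i * v 0 + c * v i.succ
      + d * z i * (∑ i, z i * v (Fin.succ i)) := by
    intro i
    rw [h1, Fin.sum_univ_succ]
    simp only [Mz_succ_zero, Mz_succ_succ]
    have e : ∀ x, ((if i = x then c else 0) + d * (z i * z x)) * v (Fin.succ x) =
        (if i = x then c * v (Fin.succ i) else 0) + d * z i * (z x * v (Fin.succ x)) := by
      intro x
      by_cases hx : i = x
      · subst hx; simp only [if_true]; ring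
      · simp only [if_neg hx]; ring
    simp_rw [e]
    rw [Finset.sum_add_distrib, Finset.sum_ite_eq, ← Finset.mul_sum]
    simp; ring
  rw [dotProduct, Fin.sum_univ_succ, h0]
  simp_rw [hi]
  simp only [star_trivial]
  set s := ∑ i, z i * v (Fin.succ i) with hs
  have e : ∀ i : Fin k, v i.succ * (b * z i * v 0 + c * v i.succ + d * z i * s) =
      (b * v 0 + d * s) * (z i * v i.succ) + c * v i.succ ^ 2 := fun i => by ring
  simp_rw [e]
  rw [Finset.sum_add_distrib, ← Finset.mul_sum, ← Finset.mul_sum, ← hs]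
  ring

lemma Mz_posDef (z : Fin k → ℝ) {a b c d : ℝ} (ha : 0 < a) (hc : 0 < c)
    (hd : b ^ 2 ≤ a * d) : (Mz z a b c d).PosDef := by
  refine Matrix.PosDef.of_dotProduct_mulVec_pos (Mz_isHermitian z a b c d) ?_
  intro v hv
  rw [Mz_quad]
  set s := ∑ i, z i * v (Fin.succ i) with hs
  set q := ∑ i, v (Fin.succ i) ^ 2 with hq
  have hq0 : 0 ≤ q := Finset.sum_nonneg fun i _ => sq_nonneg _
  have key : a * (a * v 0 ^ 2 + 2 * b * v 0 * s + c * q + d * s ^ 2) =
      (a * v 0 + b * s) ^ 2 + a * c * q + (a * d - b ^ 2) * s ^ 2 := by ring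
  have hpos : 0 < (a * v 0 + b * s) ^ 2 + a * c * q + (a * d - b ^ 2) * s ^ 2 := by
    have h1 : 0 ≤ (a * d - b ^ 2) * s ^ 2 := by
      apply mul_nonneg _ (sq_nonneg _); linarith
    rcases hq0.lt_or_eq with h | h
    · have : 0 < a * c * q := by positivity
      have := sq_nonneg (a * v 0 + b * s)
      linarith
    · have hz : ∀ i : Fin k, v (Fin.succ i) = 0 := by
        intro i
        have := (Finset.sum_eq_zero_iff_of_nonneg (fun i _ => sq_nonneg (v (Fin.succ i)))).1 h.symm
          i (Finset.mem_univ i)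
        simpa using this
      have hs0 : s = 0 := by
        rw [hs]; exact Finset.sum_eq_zero fun i _ => by rw [hz i, mul_zero]
      have hv0 : v 0 ≠ 0 := by
        intro h0
        apply hv
        funext i
        refine Fin.cases h0 (fun i => hz i) i
      rw [hs0, ← h]
      have : 0 < (a * v 0) ^ 2 := by positivity
      simpa using this
  rw [← key] at hpos
  exact (mul_pos_iff_of_pos_left ha).1 hpos

end Vale.Agent.P252
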