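import Mathlib
import Vale.Agent.Lib.P252.Defs
import Vale.Agent.Lib.P252.Mat

/-!
Calculus for functions of `(x₀, ρ(x))`, `ρ(x) = ∑_{i ≥ 1} xᵢ²`.
-/

open Matrix Finset

namespace Vale.Agent.P252

variable {k : ℕ}

/-- the tail of `x` -/
def zvec (x : EuclideanSpace ℝ (Fin (k + 1))) : Fin k → ℝ := fun i => x i.succ

/-- `ρ(x) = ∑_{i ≥ 1} xᵢ²` -/
noncomputable def rho (x : EuclideanSpace ℝ (Fin (k + 1))) : ℝ := ∑ i : Fin k, x i.succ ^ 2

lemma rho_nonneg (x : EuclideanSpace ℝ (Fin (k + 1))) : 0 ≤ rho x :=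
  Finset.sum_nonneg fun _ _ => sq_nonneg _

lemma sum_zvec (x : EuclideanSpace ℝ (Fin (k + 1))) : ∑ i, zvec x i ^ 2 = rho x := rfl

/-- the first coordinate functional -/
noncomputable def e0 : EuclideanSpace ℝ (Fin (k + 1)) →L[ℝ] ℝ := EuclideanSpace.proj 0

/-- the differential of `ρ` -/
noncomputable def dr (x : EuclideanSpace ℝ (Fin (k + 1))) :
    EuclideanSpace ℝ (Fin (k + 1)) →L[ℝ] ℝ :=
  ∑ i : Fin k, (2 * x i.succ) • (EuclideanSpace.proj i.succ :
    EuclideanSpace ℝ (Fin (k + 1)) →L[ℝ] ℝ)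

lemma e0_zero : (e0 : EuclideanSpace ℝ (Fin (k + 1)) →L[ℝ] ℝ) (EuclideanSpace.single 0 1) = 1 := by
  simp [e0]

lemma e0_succ (i : Fin k) :
    (e0 : EuclideanSpace ℝ (Fin (k + 1)) →L[ℝ] ℝ) (EuclideanSpace.single i.succ 1) = 0 := by
  simp [e0]

lemma dr_zero (x : EuclideanSpace ℝ (Fin (k + 1))) :
    dr x (EuclideanSpace.single 0 1) = 0 := by
  simp [dr]

lemma dr_succ (x : EuclideanSpace ℝ (Fin (k + 1))) (i : Fin k) :
    dr x (EuclideanSpace.single i.succ 1) = 2 * x i.succ := by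
  simp [dr]

/-- `DD F x p q` : `F` is differentiable at `x` with differential `p e₀ + q dρ`. -/
def DD (F : EuclideanSpace ℝ (Fin (k + 1)) → ℝ) (x : EuclideanSpace ℝ (Fin (k + 1)))
    (p q : ℝ) : Prop :=
  HasFDerivAt F (p • e0 + q • dr x) x

lemma DD.congr {F : EuclideanSpace ℝ (Fin (k + 1)) → ℝ} {x : EuclideanSpace ℝ (Fin (k + 1))}
    {p q p' q' : ℝ} (h : DD F x p q) (hp : p = p') (hq : q = q') : DD F x p' q' := by
  rw [← hp, ← hq]; exact h

lemma DD.fst (x : EuclideanSpace ℝ (Fin (k + 1))) : DD (fun y => y 0) x 1 0 := by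
  unfold DD
  have : HasFDerivAt (fun y : EuclideanSpace ℝ (Fin (k + 1)) => y 0) e0 x :=
    (EuclideanSpace.proj (𝕜 := ℝ) (0 : Fin (k + 1))).hasFDerivAt
  simpa using this

lemma DD.rho (x : EuclideanSpace ℝ (Fin (k + 1))) : DD (rho (k := k)) x 0 1 := by
  unfold DD
  have h : ∀ i : Fin k, HasFDerivAt (fun y : EuclideanSpace ℝ (Fin (k + 1)) => y i.succ ^ 2)
      ((2 * x i.succ) • (EuclideanSpace.proj i.succ :
        EuclideanSpace ℝ (Fin (k + 1)) →L[ℝ] ℝ)) x := by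
    intro i
    have h1 : HasFDerivAt (fun y : EuclideanSpace ℝ (Fin (k + 1)) => y i.succ)
      (EuclideanSpace.proj i.succ : EuclideanSpace ℝ (Fin (k + 1)) →L[ℝ] ℝ) x :=
      (EuclideanSpace.proj (𝕜 := ℝ) (i.succ)).hasFDerivAt
    have h2 := h1.pow 2
    simpa using h2
  have := HasFDerivAt.fun_sum (u := Finset.univ) fun i _ => h i
  simp only [zero_smul, one_smul, zero_add]
  exact this

lemma DD.comp {F : EuclideanSpace ℝ (Fin (k + 1)) → ℝ} {x : EuclideanSpace ℝ (Fin (k + 1))}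
    {p q : ℝ} {g : ℝ → ℝ} {g' : ℝ} (hg : HasDerivAt g g' (F x)) (h : DD F x p q) :
    DD (fun y => g (F y)) x (g' * p) (g' * q) := by
  unfold DD at *
  have := hg.comp_hasFDerivAt x h
  refine this.congr_fderiv ?_
  rw [smul_add, smul_smul, smul_smul]

lemma DD.comp_rho {x : EuclideanSpace ℝ (Fin (k + 1))} {g : ℝ → ℝ} {g' : ℝ}
    (hg : HasDerivAt g g' (Vale.Agent.P252.rho x)) :
    DD (fun y => g (Vale.Agent.P252.rho y)) x 0 g' :=
  (DD.comp hg (DD.rho x)).congr (by ring) (by ring)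

lemma DD.mul {F G : EuclideanSpace ℝ (Fin (k + 1)) → ℝ} {x : EuclideanSpace ℝ (Fin (k + 1))}
    {p q p' q' : ℝ} (h : DD F x p q) (h' : DD G x p' q') :
    DD (fun y => F y * G y) x (F x * p' + G x * p) (F x * q' + G x * q) := by
  unfold DD at *
  refine (HasFDerivAt.mul h h').congr_fderiv ?_
  module

lemma DD.add {F G : EuclideanSpace ℝ (Fin (k + 1)) → ℝ} {x : EuclideanSpace ℝ (Fin (k + 1))}
    {p q p' q' : ℝ} (h : DD F x p q) (h' : DD G x p' q') :
    DD (fun y => F y + G y) x (p + p') (q + q') := by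
  unfold DD at *
  refine (HasFDerivAt.add h h').congr_fderiv ?_
  module

lemma DD.const (c : ℝ) (x : EuclideanSpace ℝ (Fin (k + 1))) :
    DD (fun _ => c) x 0 0 := by
  unfold DD
  simpa using hasFDerivAt_const (𝕜 := ℝ) c x

lemma DD.const_mul {F : EuclideanSpace ℝ (Fin (k + 1)) → ℝ}
    {x : EuclideanSpace ℝ (Fin (k + 1))} {p q : ℝ} (c : ℝ) (h : DD F x p q) :
    DD (fun y => c * F y) x (c * p) (c * q) :=
  ((DD.const c x).mul h).congr (by ring) (by ring)

lemma DD.pow {F : EuclideanSpace ℝ (Fin (k + 1)) → ℝ}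
    {x : EuclideanSpace ℝ (Fin (k + 1))} {p q : ℝ} (h : DD F x p q) (m : ℕ) :
    DD (fun y => F y ^ m) x (m * F x ^ (m - 1) * p) (m * F x ^ (m - 1) * q) :=
  DD.comp (hasDerivAt_pow m (F x)) h

lemma DD.inv {F : EuclideanSpace ℝ (Fin (k + 1)) → ℝ}
    {x : EuclideanSpace ℝ (Fin (k + 1))} {p q : ℝ} (h : DD F x p q) (h0 : F x ≠ 0) :
    DD (fun y => (F y)⁻¹) x (-p / F x ^ 2) (-q / F x ^ 2) :=
  (DD.comp (hasDerivAt_inv h0) h).congr (by field_simp) (by field_simp)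

lemma DD.sqrt {F : EuclideanSpace ℝ (Fin (k + 1)) → ℝ}
    {x : EuclideanSpace ℝ (Fin (k + 1))} {p q : ℝ} (h : DD F x p q) (h0 : 0 < F x) :
    DD (fun y => Real.sqrt (F y)) x (p / (2 * Real.sqrt (F x))) (q / (2 * Real.sqrt (F x))) :=
  (DD.comp (Real.hasDerivAt_sqrt h0.ne') h).congr (by ring) (by ring)

lemma DD.fderiv_zero {F : EuclideanSpace ℝ (Fin (k + 1)) → ℝ}
    {x : EuclideanSpace ℝ (Fin (k + 1))} {p q : ℝ} (h : DD F x p q) :
    fderiv ℝ F x (EuclideanSpace.single 0 1) = p := by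
  rw [HasFDerivAt.fderiv h]
  simp only [_root_.add_apply, _root_.smul_apply, e0_zero, dr_zero,
    smul_eq_mul]
  ring

lemma DD.fderiv_succ {F : EuclideanSpace ℝ (Fin (k + 1)) → ℝ}
    {x : EuclideanSpace ℝ (Fin (k + 1))} {p q : ℝ} (h : DD F x p q) (i : Fin k) :
    fderiv ℝ F x (EuclideanSpace.single i.succ 1) = 2 * q * x i.succ := by
  rw [HasFDerivAt.fderiv h]
  simp only [_root_.add_apply, _root_.smul_apply, e0_succ, dr_succ,
    smul_eq_mul]
  ring

/-- Hessian of a function of `(x₀, ρ)`. -/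
lemma hessian_eq {F P Q : EuclideanSpace ℝ (Fin (k + 1)) → ℝ}
    {x : EuclideanSpace ℝ (Fin (k + 1))} {a b d : ℝ}
    (hF : ∀ y, DD F y (P y) (Q y)) (hP : DD P x a b) (hQ : DD Q x b d) :
    hessian F x = Mz (zvec x) a (2 * b) (2 * Q x) (4 * d) := by
  have h0 : (fun y => fderiv ℝ F y (EuclideanSpace.single 0 (1:ℝ))) = P :=
    funext fun y => (hF y).fderiv_zero
  have hs : ∀ i : Fin k, (fun y => fderiv ℝ F y (EuclideanSpace.single i.succ (1:ℝ))) =
      fun y => 2 * Q y * y i.succ := fun i => funext fun y => (hF y).fderiv_succ i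
  have hQi : ∀ i : Fin k, HasFDerivAt (fun y : EuclideanSpace ℝ (Fin (k + 1)) =>
      2 * Q y * y i.succ) ((2 * Q x) • (EuclideanSpace.proj i.succ :
        EuclideanSpace ℝ (Fin (k + 1)) →L[ℝ] ℝ) + x i.succ • ((2:ℝ) • (b • e0 + d • dr x))) x := by
    intro i
    have h1 : HasFDerivAt (fun y : EuclideanSpace ℝ (Fin (k + 1)) => y i.succ)
      (EuclideanSpace.proj i.succ : EuclideanSpace ℝ (Fin (k + 1)) →L[ℝ] ℝ) x :=
      (EuclideanSpace.proj (𝕜 := ℝ) (i.succ)).hasFDerivAt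
    have h2 : HasFDerivAt (fun y => 2 * Q y) ((2:ℝ) • (b • e0 + d • dr x)) x :=
      HasFDerivAt.const_mul hQ 2
    exact h2.mul h1
  ext i j
  refine Fin.cases ?_ (fun i => ?_) i
  · unfold hessian
    rw [Matrix.of_apply, h0]
    refine Fin.cases ?_ (fun j => ?_) j
    · rw [hP.fderiv_zero, Mz_zero_zero]
    · rw [hP.fderiv_succ, Mz_zero_succ]; rfl
  · unfold hessian
    rw [Matrix.of_apply, hs i, (hQi i).fderiv]
    refine Fin.cases ?_ (fun j => ?_) j
    · rw [Mz_succ_zero]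
      simp only [_root_.add_apply, _root_.smul_apply, e0_zero, dr_zero,
        smul_eq_mul, zvec]
      simp
      ring
    · rw [Mz_succ_succ]
      simp only [_root_.add_apply, _root_.smul_apply, e0_succ, dr_succ,
        smul_eq_mul, zvec]
      by_cases hij : i = j
      · subst hij
        simp
        ring
      · simp [hij]
        ring

end Vale.Agent.P252
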