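import Mathlib

/-!
A weighted contraction principle for operators on continuous functions `ℝ → E`.
-/

open Filter Topology

namespace Vale.Agent.P252

theorem exists_fixed_of_weighted_contraction
    {E : Type*} [NormedAddCommGroup E] [CompleteSpace E]
    (T : (ℝ → E) → (ℝ → E)) (w : ℝ → ℝ) (hw : Continuous w)
    (hT : ∀ y, Continuous y → Continuous (T y))
    (q : ℝ) (hq0 : 0 ≤ q) (hq1 : q < 1)
    (hcontr : ∀ (y z : ℝ → E), Continuous y → Continuous z → ∀ K : ℝ, 0 ≤ K →
      (∀ x, ‖y x - z x‖ ≤ K * w x) → ∀ x, ‖T y x - T z x‖ ≤ q * K * w x)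
    (y0 : ℝ → E) (hy0 : Continuous y0) (K0 : ℝ) (hK0 : 0 ≤ K0)
    (h0 : ∀ x, ‖T y0 x - y0 x‖ ≤ K0 * w x) :
    ∃ y : ℝ → E, Continuous y ∧ T y = y := by
  classical
  set Y : ℕ → ℝ → E := fun j => T^[j] y0 with hY
  have hYsucc : ∀ j, Y (j + 1) = T (Y j) := fun j => by
    simp only [hY, Function.iterate_succ_apply']
  have hYc : ∀ j, Continuous (Y j) := by
    intro j
    induction j with
    | zero => simpa [hY] using hy0
    | succ j ih => rw [hYsucc]; exact hT _ ih
  have hstep : ∀ j x, ‖Y (j + 1) x - Y j x‖ ≤ K0 * q ^ j * w x := by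
    intro j
    induction j with
    | zero =>
      intro x
      have := h0 x
      rw [hYsucc]
      simpa [hY] using this
    | succ j ih =>
      intro x
      have := hcontr (Y (j + 1)) (Y j) (hYc _) (hYc _) (K0 * q ^ j) (by positivity) ih x
      rw [← hYsucc, ← hYsucc] at this
      calc ‖Y (j + 1 + 1) x - Y (j + 1) x‖ ≤ q * (K0 * q ^ j) * w x := this
        _ = K0 * q ^ (j + 1) * w x := by ring
  have hdist : ∀ x j, dist (Y j x) (Y (j + 1) x) ≤ (K0 * w x) * q ^ j := by
    intro x j
    rw [dist_comm, dist_eq_norm]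
    calc ‖Y (j + 1) x - Y j x‖ ≤ K0 * q ^ j * w x := hstep j x
      _ = (K0 * w x) * q ^ j := by ring
  have hcau : ∀ x, CauchySeq fun j => Y j x := fun x =>
    cauchySeq_of_le_geometric q (K0 * w x) hq1 (hdist x)
  choose y hy using fun x => cauchySeq_tendsto_of_complete (hcau x)
  have hlim : ∀ x j, dist (Y j x) (y x) ≤ K0 * w x * q ^ j / (1 - q) := fun x j =>
    dist_le_of_le_geometric_of_tendsto q (K0 * w x) hq1 (hdist x) (hy x) j
  have hq1' : 0 < 1 - q := by linarith
  have hyc : Continuous y := by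
    have hloc : TendstoLocallyUniformly Y y atTop := by
      rw [Metric.tendstoLocallyUniformly_iff]
      intro ε hε x
      refine ⟨{z | w z < w x + 1}, (isOpen_lt hw continuous_const).mem_nhds (by simp), ?_⟩
      have hpow : Tendsto (fun j : ℕ => K0 * (|w x| + 1) * q ^ j / (1 - q)) atTop (𝓝 0) := by
        have := (tendsto_pow_atTop_nhds_zero_of_lt_one hq0 hq1)
        have h2 := (this.const_mul (K0 * (|w x| + 1))).div_const (1 - q)
        simpa using h2
      filter_upwards [hpow.eventually (gt_mem_nhds hε)] with j hj z hz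
      rw [dist_comm]
      refine lt_of_le_of_lt (hlim z j) (lt_of_le_of_lt ?_ hj)
      have hz' : w z ≤ |w x| + 1 := by
        have h1 := le_abs_self (w x)
        have h2 : w z < w x + 1 := hz
        linarith
      gcongr
    exact hloc.continuous (Frequently.of_forall hYc)
  refine ⟨y, hyc, ?_⟩
  funext x
  have h1 : Tendsto (fun j => Y (j + 1) x) atTop (𝓝 (y x)) := (tendsto_add_atTop_iff_nat 1).2 (hy x)
  have h2 : Tendsto (fun j => Y (j + 1) x) atTop (𝓝 (T y x)) := by
    rw [tendsto_iff_dist_tendsto_zero]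
    have hb : ∀ j, dist (Y (j + 1) x) (T y x) ≤ q * (K0 * q ^ j / (1 - q)) * w x := by
      intro j
      rw [hYsucc, dist_eq_norm]
      refine hcontr (Y j) y (hYc j) hyc (K0 * q ^ j / (1 - q)) (by positivity) ?_ x
      intro z
      have := hlim z j
      rw [dist_eq_norm] at this
      calc ‖Y j z - y z‖ ≤ K0 * w z * q ^ j / (1 - q) := this
        _ = K0 * q ^ j / (1 - q) * w z := by ring
    have hz : Tendsto (fun j : ℕ => q * (K0 * q ^ j / (1 - q)) * w x) atTop (𝓝 0) := by
      have := (tendsto_pow_atTop_nhds_zero_of_lt_one hq0 hq1)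
      have h3 := (((this.const_mul K0).div_const (1 - q)).const_mul q).mul_const (w x)
      simpa using h3
    exact squeeze_zero (fun j => dist_nonneg) hb hz
  exact tendsto_nhds_unique h2 h1

end Vale.Agent.P252
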