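import Mathlib
import Vale.Agent.Lib.P252.Fix

/-!
Global solution of the (truncated) singular planar system.
-/

open Filter Topology Set

namespace Vale.Agent.P252

/-- truncation to `[0,2]` -/
noncomputable def cl (x : ℝ) : ℝ := max 0 (min x 2)
/-- truncation from below at `-1` -/
noncomputable def cr (x : ℝ) : ℝ := max x (-1)

lemma cl_nonneg (x : ℝ) : 0 ≤ cl x := le_max_left _ _
lemma cl_le (x : ℝ) : cl x ≤ 2 := max_le (by norm_num) (min_le_right _ _)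
lemma cl_abs (x : ℝ) : |cl x| ≤ 2 := by rw [abs_of_nonneg (cl_nonneg x)]; exact cl_le x
lemma cl_of_mem {x : ℝ} (h0 : 0 ≤ x) (h2 : x ≤ 2) : cl x = x := by
  simp [cl, h0, h2]
lemma cl_zero : cl 0 = 0 := by simp [cl]
lemma cl_lip (x y : ℝ) : |cl x - cl y| ≤ |x - y| := by
  unfold cl
  refine (abs_max_sub_max_le_max _ _ _ _).trans ?_
  refine max_le (by simp) ?_
  refine (abs_min_sub_min_le_max _ _ _ _).trans ?_
  simp
lemma continuous_cl : Continuous cl := by unfold cl; fun_prop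
lemma cr_ge (x : ℝ) : -1 ≤ cr x := le_max_right _ _
lemma cr_of_ge {x : ℝ} (h : -1 ≤ x) : cr x = x := by simp [cr, h]
lemma cr_abs (x : ℝ) : |cr x| ≤ 1 + |x| := by
  unfold cr
  rcases le_total x (-1) with h | h
  · rw [max_eq_right h]; simp
  · rw [max_eq_left h]; linarith
lemma continuous_cr : Continuous cr := by unfold cr; fun_prop

/-- the nonlinearity of the first equation -/
noncomputable def F0 (A B : ℝ) : ℝ := 1 / 2 * A * (B - A)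

/-- the nonlinearity of the second equation -/
noncomputable def H0 (k R A B : ℝ) : ℝ :=
  B * (-k * B + A) + (k + 3) * (B * (A * (1 + 2 * R * B) / (k + 2 * R * A)))
    + 2 * (k + 3) / k * (A * (k * B - A) * (k + 2 * R * A)⁻¹)

lemma den_ge {k R A : ℝ} (hk : 9 ≤ k) (hR : -1 ≤ R) (hA0 : 0 ≤ A) (hA2 : A ≤ 2) :
    5 ≤ k + 2 * R * A := by nlinarith

lemma F0_lip {A1 B1 A2 B2 d : ℝ} (hA1 : |A1| ≤ 2) (hB1 : |B1| ≤ 2) (hA2 : |A2| ≤ 2)
    (hA : |A1 - A2| ≤ d) (hB : |B1 - B2| ≤ d) :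
    |F0 A1 B1 - F0 A2 B2| ≤ 4 * d := by
  have hd : 0 ≤ d := (abs_nonneg _).trans hA
  have e : F0 A1 B1 - F0 A2 B2 =
      1 / 2 * ((A1 - A2) * B1 + A2 * (B1 - B2) - (A1 - A2) * A1 - A2 * (A1 - A2)) := by
    unfold F0; ring
  have h1 : |(A1 - A2) * B1| ≤ d * 2 := by rw [abs_mul]; gcongr
  have h2 : |A2 * (B1 - B2)| ≤ 2 * d := by rw [abs_mul]; gcongr
  have h3 : |(A1 - A2) * A1| ≤ d * 2 := by rw [abs_mul]; gcongr
  have h4 : |A2 * (A1 - A2)| ≤ 2 * d := by rw [abs_mul]; gcongr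
  rw [e, abs_mul, abs_of_pos (by norm_num : (0:ℝ) < 1 / 2)]
  have h5 : |(A1 - A2) * B1 + A2 * (B1 - B2) - (A1 - A2) * A1 - A2 * (A1 - A2)| ≤ 8 * d := by
    rw [abs_le] at *
    constructor <;> linarith [h1.1, h1.2, h2.1, h2.2, h3.1, h3.2, h4.1, h4.2]
  linarith


lemma P_bound {k R A1 B1 : ℝ} (hk : 9 ≤ k) (hR : -1 ≤ R)
    (hA1 : 0 ≤ A1) (hA1' : A1 ≤ 2) (hB1 : 0 ≤ B1) (hB1' : B1 ≤ 2) :
    |A1 * (1 + 2 * R * B1) / (k + 2 * R * A1)| ≤ 2 * (1 + |R|) := by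
  have hD1 := den_ge (k := k) hk hR hA1 hA1'
  have hD1p : 0 < k + 2 * R * A1 := by linarith
  have aA1 : |A1| ≤ 2 := by rwa [abs_of_nonneg hA1]
  have aB1 : |B1| ≤ 2 := by rwa [abs_of_nonneg hB1]
  have hR0 := abs_nonneg R
  rw [abs_div, abs_of_pos hD1p, div_le_iff₀ hD1p, abs_mul]
  have h1 : |1 + 2 * R * B1| ≤ 1 + 4 * |R| := by
    refine (abs_add_le _ _).trans ?_
    rw [abs_one, abs_mul, abs_mul, abs_two]
    have : |R| * |B1| ≤ |R| * 2 := by gcongr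
    linarith
  have h2 : |A1| * |1 + 2 * R * B1| ≤ 2 * (1 + 4 * |R|) := by gcongr
  have h3 : 2 * (1 + |R|) * 5 ≤ 2 * (1 + |R|) * (k + 2 * R * A1) := by gcongr
  linarith

lemma AB_diff {A1 B1 A2 B2 d : ℝ} (hB1 : |B1| ≤ 2) (hA2 : |A2| ≤ 2)
    (hA : |A1 - A2| ≤ d) (hB : |B1 - B2| ≤ d) : |A1 * B1 - A2 * B2| ≤ 4 * d := by
  have hd : 0 ≤ d := (abs_nonneg _).trans hA
  have e : A1 * B1 - A2 * B2 = (A1 - A2) * B1 + A2 * (B1 - B2) := by ring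
  have h1 : |(A1 - A2) * B1| ≤ d * 2 := by rw [abs_mul]; gcongr
  have h2 : |A2 * (B1 - B2)| ≤ 2 * d := by rw [abs_mul]; gcongr
  rw [e]; refine (abs_add_le _ _).trans ?_; linarith

lemma P_diff {k R A1 B1 A2 B2 d : ℝ} (hk : 9 ≤ k) (hR : -1 ≤ R)
    (hA1 : 0 ≤ A1) (hA1' : A1 ≤ 2) (hB1 : 0 ≤ B1) (hB1' : B1 ≤ 2)
    (hA2 : 0 ≤ A2) (hA2' : A2 ≤ 2)
    (hA : |A1 - A2| ≤ d) (hB : |B1 - B2| ≤ d) :
    |A1 * (1 + 2 * R * B1) / (k + 2 * R * A1) - A2 * (1 + 2 * R * B2) / (k + 2 * R * A2)|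
      ≤ k * (1 + |R|) * d := by
  have hd : 0 ≤ d := (abs_nonneg _).trans hA
  have hk0 : 0 < k := by linarith
  have hR0 := abs_nonneg R
  have hD1 := den_ge (k := k) hk hR hA1 hA1'
  have hD2 := den_ge (k := k) hk hR hA2 hA2'
  have hD1p : 0 < k + 2 * R * A1 := by linarith
  have hD2p : 0 < k + 2 * R * A2 := by linarith
  have aB1 : |B1| ≤ 2 := by rwa [abs_of_nonneg hB1]
  have aA2 : |A2| ≤ 2 := by rwa [abs_of_nonneg hA2]
  have hAB := AB_diff aB1 aA2 hA hB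
  have hDD : 25 ≤ (k + 2 * R * A1) * (k + 2 * R * A2) := by
    calc (25:ℝ) = 5 * 5 := by norm_num
      _ ≤ _ := by gcongr
  have hDDp : 0 < (k + 2 * R * A1) * (k + 2 * R * A2) := by positivity
  have e : A1 * (1 + 2 * R * B1) / (k + 2 * R * A1) - A2 * (1 + 2 * R * B2) / (k + 2 * R * A2)
      = (k * (A1 - A2) + 2 * R * k * (A1 * B1 - A2 * B2)) / ((k + 2 * R * A1) * (k + 2 * R * A2))
        + (4 * R ^ 2 * A1 * A2) / ((k + 2 * R * A1) * (k + 2 * R * A2)) * (B1 - B2) := by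
    have n1 : k + 2 * R * A1 ≠ 0 := hD1p.ne'
    have n2 : k + 2 * R * A2 ≠ 0 := hD2p.ne'
    rw [div_sub_div _ _ n1 n2, div_mul_eq_mul_div, ← add_div]
    congr 1
    ring
  have h1 : |(k * (A1 - A2) + 2 * R * k * (A1 * B1 - A2 * B2)) /
      ((k + 2 * R * A1) * (k + 2 * R * A2))| ≤ (k * d + 8 * |R| * k * d) / 25 := by
    rw [abs_div, abs_of_pos hDDp]
    have : |k * (A1 - A2) + 2 * R * k * (A1 * B1 - A2 * B2)| ≤ k * d + 8 * |R| * k * d := by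
      refine (abs_add_le _ _).trans ?_
      have i1 : |k * (A1 - A2)| ≤ k * d := by rw [abs_mul, abs_of_pos hk0]; gcongr
      have i2 : |2 * R * k * (A1 * B1 - A2 * B2)| ≤ 2 * |R| * k * (4 * d) := by
        rw [abs_mul, abs_mul, abs_mul, abs_two, abs_of_pos hk0]; gcongr
      linarith
    gcongr
  have h2 : |(4 * R ^ 2 * A1 * A2) / ((k + 2 * R * A1) * (k + 2 * R * A2))| ≤ 1 := by
    rw [abs_div, abs_of_pos hDDp, div_le_one hDDp, abs_of_nonneg (by positivity)]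
    rcases le_total 0 R with h | h
    · have i1 : 2 * R * A1 ≤ (k + 2 * R * A1) := by linarith
      have i2 : 2 * R * A2 ≤ (k + 2 * R * A2) := by linarith
      have i3 : 0 ≤ 2 * R * A1 := by positivity
      have i4 : 0 ≤ 2 * R * A2 := by positivity
      calc 4 * R ^ 2 * A1 * A2 = (2 * R * A1) * (2 * R * A2) := by ring
        _ ≤ _ := by gcongr
    · have i1 : R ^ 2 ≤ 1 := by nlinarith
      have i2 : A1 * A2 ≤ 4 := by nlinarith
      have i3 : 0 ≤ A1 * A2 := by positivity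
      have i4 : R ^ 2 * (A1 * A2) ≤ 1 * (A1 * A2) := by gcongr
      linarith
  have h3 : |(4 * R ^ 2 * A1 * A2) / ((k + 2 * R * A1) * (k + 2 * R * A2)) * (B1 - B2)|
      ≤ 1 * d := by
    rw [abs_mul]; gcongr
  rw [e]
  refine (abs_add_le _ _).trans ?_
  have hkd : 0 ≤ k * d := by positivity
  have h4 : (k * d + 8 * |R| * k * d) / 25 + 1 * d ≤ k * (1 + |R|) * d := by
    have h5 : 0 ≤ |R| * (k * d) := by positivity
    have h6 : 9 * d ≤ k * d := by gcongr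
    nlinarith
  linarith

lemma BP_diff {k R A1 B1 A2 B2 d : ℝ} (hk : 9 ≤ k) (hR : -1 ≤ R)
    (hA1 : 0 ≤ A1) (hA1' : A1 ≤ 2) (hB1 : 0 ≤ B1) (hB1' : B1 ≤ 2)
    (hA2 : 0 ≤ A2) (hA2' : A2 ≤ 2) (hB2 : 0 ≤ B2) (hB2' : B2 ≤ 2)
    (hA : |A1 - A2| ≤ d) (hB : |B1 - B2| ≤ d) :
    |B1 * (A1 * (1 + 2 * R * B1) / (k + 2 * R * A1))
        - B2 * (A2 * (1 + 2 * R * B2) / (k + 2 * R * A2))|
      ≤ (2 + 2 * k) * (1 + |R|) * d := by
  have hd : 0 ≤ d := (abs_nonneg _).trans hA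
  have aB2 : |B2| ≤ 2 := by rwa [abs_of_nonneg hB2]
  have hR0 := abs_nonneg R
  have hk0 : 0 < k := by linarith
  have hp := P_bound hk hR hA1 hA1' hB1 hB1'
  have hpd := P_diff hk hR hA1 hA1' hB1 hB1' hA2 hA2' hA hB
  generalize A1 * (1 + 2 * R * B1) / (k + 2 * R * A1) = P1 at *
  generalize A2 * (1 + 2 * R * B2) / (k + 2 * R * A2) = P2 at *
  have e : B1 * P1 - B2 * P2 = (B1 - B2) * P1 + B2 * (P1 - P2) := by ring
  have h1 : |(B1 - B2) * P1| ≤ d * (2 * (1 + |R|)) := by rw [abs_mul]; gcongr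
  have h2 : |B2 * (P1 - P2)| ≤ 2 * (k * (1 + |R|) * d) := by rw [abs_mul]; gcongr
  rw [e]; refine (abs_add_le _ _).trans ?_; linarith

lemma EX_diff {k R A1 B1 A2 B2 d : ℝ} (hk : 9 ≤ k) (hR : -1 ≤ R)
    (hA1 : 0 ≤ A1) (hA1' : A1 ≤ 2) (hB1 : 0 ≤ B1) (hB1' : B1 ≤ 2)
    (hA2 : 0 ≤ A2) (hA2' : A2 ≤ 2) (hB2 : 0 ≤ B2) (hB2' : B2 ≤ 2)
    (hA : |A1 - A2| ≤ d) (hB : |B1 - B2| ≤ d) :
    |A1 * (k * B1 - A1) * (k + 2 * R * A1)⁻¹ - A2 * (k * B2 - A2) * (k + 2 * R * A2)⁻¹|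
      ≤ (8 * k + 8) * (1 + |R|) * d := by
  have hd : 0 ≤ d := (abs_nonneg _).trans hA
  have hk0 : 0 < k := by linarith
  have hR0 := abs_nonneg R
  have hD1 := den_ge (k := k) hk hR hA1 hA1'
  have hD2 := den_ge (k := k) hk hR hA2 hA2'
  have hD1p : 0 < k + 2 * R * A1 := by linarith
  have hD2p : 0 < k + 2 * R * A2 := by linarith
  have aA1 : |A1| ≤ 2 := by rwa [abs_of_nonneg hA1]
  have aA2 : |A2| ≤ 2 := by rwa [abs_of_nonneg hA2]
  have aB1 : |B1| ≤ 2 := by rwa [abs_of_nonneg hB1]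
  have aB2 : |B2| ≤ 2 := by rwa [abs_of_nonneg hB2]
  have hAB := AB_diff aB1 aA2 hA hB
  have hEd : |A1 * (k * B1 - A1) - A2 * (k * B2 - A2)| ≤ (4 * k + 4) * d := by
    have e : A1 * (k * B1 - A1) - A2 * (k * B2 - A2)
        = k * (A1 * B1 - A2 * B2) - (A1 + A2) * (A1 - A2) := by ring
    have h1 : |k * (A1 * B1 - A2 * B2)| ≤ k * (4 * d) := by
      rw [abs_mul, abs_of_pos hk0]; gcongr
    have h2 : |(A1 + A2) * (A1 - A2)| ≤ 4 * d := by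
      rw [abs_mul]
      have : |A1 + A2| ≤ 4 := (abs_add_le _ _).trans (by linarith)
      gcongr
    rw [e]; refine (abs_sub _ _).trans ?_; linarith
  have hE2b : |A2 * (k * B2 - A2)| ≤ 4 * k + 4 := by
    rw [abs_mul]
    have h1 : |k * B2 - A2| ≤ 2 * k + 2 := by
      refine (abs_sub _ _).trans ?_
      rw [abs_mul, abs_of_pos hk0]
      have : k * |B2| ≤ k * 2 := by gcongr
      linarith
    calc |A2| * |k * B2 - A2| ≤ 2 * (2 * k + 2) := by gcongr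
      _ = 4 * k + 4 := by ring
  have hXd : |(k + 2 * R * A1)⁻¹ - (k + 2 * R * A2)⁻¹| ≤ (1 + |R|) * d := by
    have e : (k + 2 * R * A1)⁻¹ - (k + 2 * R * A2)⁻¹
        = -(2 * R) * (A1 - A2) / ((k + 2 * R * A1) * (k + 2 * R * A2)) := by
      field_simp
      ring
    have hDD : 25 ≤ (k + 2 * R * A1) * (k + 2 * R * A2) := by
      calc (25:ℝ) = 5 * 5 := by norm_num
        _ ≤ _ := by gcongr
    have hDDp : 0 < (k + 2 * R * A1) * (k + 2 * R * A2) := by positivity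
    rw [e, abs_div, abs_of_pos hDDp, abs_mul, abs_neg, abs_mul, abs_two, div_le_iff₀ hDDp]
    have h1 : 2 * |R| * |A1 - A2| ≤ 2 * (1 + |R|) * d := by gcongr; linarith
    have h2 : (1 + |R|) * d * 25 ≤ (1 + |R|) * d * ((k + 2 * R * A1) * (k + 2 * R * A2)) := by
      gcongr
    have : 0 ≤ (1 + |R|) * d := by positivity
    linarith
  have hX1 : |(k + 2 * R * A1)⁻¹| ≤ 1 := by
    rw [abs_of_pos (by positivity)]
    exact inv_le_one_of_one_le₀ (by linarith)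
  generalize A1 * (k * B1 - A1) = E1 at *
  generalize A2 * (k * B2 - A2) = E2 at *
  generalize (k + 2 * R * A1)⁻¹ = X1 at *
  generalize (k + 2 * R * A2)⁻¹ = X2 at *
  have e : E1 * X1 - E2 * X2 = (E1 - E2) * X1 + E2 * (X1 - X2) := by ring
  have h1 : |(E1 - E2) * X1| ≤ ((4 * k + 4) * d) * 1 := by rw [abs_mul]; gcongr
  have h2 : |E2 * (X1 - X2)| ≤ (4 * k + 4) * ((1 + |R|) * d) := by rw [abs_mul]; gcongr
  rw [e]; refine (abs_add_le _ _).trans ?_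
  have : (4 * k + 4) * d * 1 ≤ (4 * k + 4) * d * (1 + |R|) := by gcongr; linarith
  linarith

lemma H0_lip {k R A1 B1 A2 B2 d : ℝ} (hk : 9 ≤ k) (hR : -1 ≤ R)
    (hA1 : 0 ≤ A1) (hA1' : A1 ≤ 2) (hB1 : 0 ≤ B1) (hB1' : B1 ≤ 2)
    (hA2 : 0 ≤ A2) (hA2' : A2 ≤ 2) (hB2 : 0 ≤ B2) (hB2' : B2 ≤ 2)
    (hA : |A1 - A2| ≤ d) (hB : |B1 - B2| ≤ d) :
    |H0 k R A1 B1 - H0 k R A2 B2| ≤
      ((4 * k + 4) + (k + 3) * (2 + 2 * k) + 4 * (8 * k + 8)) * (1 + |R|) * d := by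
  have hd : 0 ≤ d := (abs_nonneg _).trans hA
  have hk0 : 0 < k := by linarith
  have hR0 := abs_nonneg R
  have aA1 : |A1| ≤ 2 := by rwa [abs_of_nonneg hA1]
  have aA2 : |A2| ≤ 2 := by rwa [abs_of_nonneg hA2]
  have aB1 : |B1| ≤ 2 := by rwa [abs_of_nonneg hB1]
  have aB2 : |B2| ≤ 2 := by rwa [abs_of_nonneg hB2]
  have hAB := AB_diff aB1 aA2 hA hB
  have hBP := BP_diff hk hR hA1 hA1' hB1 hB1' hA2 hA2' hB2 hB2' hA hB
  have hEX := EX_diff hk hR hA1 hA1' hB1 hB1' hA2 hA2' hB2 hB2' hA hB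
  have hq1 : |B1 * (-k * B1 + A1) - B2 * (-k * B2 + A2)| ≤ (4 * k + 4) * (1 + |R|) * d := by
    have e : B1 * (-k * B1 + A1) - B2 * (-k * B2 + A2) =
      -(k * (B1 + B2)) * (B1 - B2) + (A1 * B1 - A2 * B2) := by ring
    have h1 : |-(k * (B1 + B2)) * (B1 - B2)| ≤ (k * 4) * d := by
      rw [abs_mul, abs_neg, abs_mul, abs_of_pos hk0]
      have : |B1 + B2| ≤ 4 := (abs_add_le _ _).trans (by linarith)
      gcongr
    rw [e]; refine (abs_add_le _ _).trans ?_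
    have : (4 * k + 4) * 1 * d ≤ (4 * k + 4) * (1 + |R|) * d := by gcongr; linarith
    linarith
  have hcoef : |2 * (k + 3) / k| ≤ 4 := by
    rw [abs_of_pos (by positivity), div_le_iff₀ hk0]; linarith
  unfold H0
  generalize A1 * (k * B1 - A1) * (k + 2 * R * A1)⁻¹ = X1 at *
  generalize A2 * (k * B2 - A2) * (k + 2 * R * A2)⁻¹ = X2 at *
  generalize B1 * (A1 * (1 + 2 * R * B1) / (k + 2 * R * A1)) = Y1 at *
  generalize B2 * (A2 * (1 + 2 * R * B2) / (k + 2 * R * A2)) = Y2 at *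
  generalize B1 * (-k * B1 + A1) = Z1 at *
  generalize B2 * (-k * B2 + A2) = Z2 at *
  have e : Z1 + (k + 3) * Y1 + 2 * (k + 3) / k * X1 - (Z2 + (k + 3) * Y2 + 2 * (k + 3) / k * X2) =
      (Z1 - Z2) + (k + 3) * (Y1 - Y2) + 2 * (k + 3) / k * (X1 - X2) := by
    ring
  have h2 : |(k + 3) * (Y1 - Y2)| ≤ (k + 3) * ((2 + 2 * k) * (1 + |R|) * d) := by
    rw [abs_mul, abs_of_pos (by linarith : (0:ℝ) < k + 3)]
    gcongr
  have h3 : |2 * (k + 3) / k * (X1 - X2)| ≤ 4 * ((8 * k + 8) * (1 + |R|) * d) := by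
    rw [abs_mul]; gcongr
  rw [e]
  refine (abs_add_le _ _).trans ?_
  have h4 := abs_add_le (Z1 - Z2) ((k + 3) * (Y1 - Y2))
  linarith

end Vale.Agent.P252
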