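import Mathlib
import Vale.Agent.Lib.P252.Ode

/-!
Global solution of the (truncated) singular planar system.
-/

open Filter Topology Set MeasureTheory

namespace Vale.Agent.P252

/-- the weight -/
noncomputable def wt (l x : ℝ) : ℝ := Real.exp (l * (|x| + x ^ 2 / 2))

lemma continuous_wt (l : ℝ) : Continuous (wt l) := by unfold wt; fun_prop

lemma wt_pos (l x : ℝ) : 0 < wt l x := Real.exp_pos _

lemma wt_ge_one {l : ℝ} (hl : 0 ≤ l) (x : ℝ) : 1 ≤ wt l x := by
  unfold wt
  exact Real.one_le_exp (by positivity)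

lemma wt_mono {l : ℝ} (hl : 0 ≤ l) {x y : ℝ} (h : |x| ≤ |y|) : wt l x ≤ wt l y := by
  unfold wt
  refine Real.exp_le_exp.2 ?_
  have : x ^ 2 ≤ y ^ 2 := sq_le_sq.2 h
  gcongr

lemma int_bound {l M : ℝ} (hl : 0 < l) (hM : 0 ≤ M) (φ : ℝ → ℝ)
    (h : ∀ s, |φ s| ≤ M * (1 + |s|) * wt l s) (x : ℝ) :
    |∫ s in (0:ℝ)..x, φ s| ≤ M / l * wt l x := by
  rcases le_total 0 x with hx | hx
  · have hder : ∀ s ∈ uIcc (0:ℝ) x, HasDerivAt (fun s => M / l * Real.exp (l * (s + s ^ 2 / 2)))
        (M * (1 + s) * Real.exp (l * (s + s ^ 2 / 2))) s := by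
      intro s _
      have h1 : HasDerivAt (fun s : ℝ => l * (s + s ^ 2 / 2)) (l * (1 + s)) s := by
        have := (((hasDerivAt_id s).add (((hasDerivAt_id s).pow 2).div_const 2)).const_mul l)
        refine this.congr_deriv ?_
        simp
      have h2 := (h1.exp.const_mul (M / l))
      refine h2.congr_deriv ?_
      field_simp
    have hint : IntervalIntegrable (fun s => M * (1 + s) * Real.exp (l * (s + s ^ 2 / 2)))
        volume 0 x := by
      apply Continuous.intervalIntegrable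
      fun_prop
    have hb : ‖∫ s in (0:ℝ)..x, φ s‖ ≤
        ∫ s in (0:ℝ)..x, M * (1 + s) * Real.exp (l * (s + s ^ 2 / 2)) := by
      refine intervalIntegral.norm_integral_le_of_norm_le hx ?_ hint
      refine Eventually.of_forall fun s hs => ?_
      have := h s
      rw [abs_of_pos hs.1] at this
      unfold wt at this
      rw [abs_of_pos hs.1] at this
      simpa using this
    rw [intervalIntegral.integral_eq_sub_of_hasDerivAt hder hint, Real.norm_eq_abs] at hb
    refine hb.trans ?_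
    unfold wt
    rw [abs_of_nonneg hx]
    simp only [ne_eq, OfNat.ofNat_ne_zero, not_false_eq_true, zero_pow, zero_div, add_zero,
      mul_zero, Real.exp_zero, mul_one, tsub_le_iff_right, le_add_iff_nonneg_right]
    positivity
  · have hder : ∀ s ∈ uIcc x 0, HasDerivAt (fun s => -(M / l) * Real.exp (l * (-s + s ^ 2 / 2)))
        (M * (1 - s) * Real.exp (l * (-s + s ^ 2 / 2))) s := by
      intro s _
      have h1 : HasDerivAt (fun s : ℝ => l * (-s + s ^ 2 / 2)) (l * (-1 + s)) s := by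
        have := (((hasDerivAt_id s).neg.add (((hasDerivAt_id s).pow 2).div_const 2)).const_mul l)
        refine this.congr_deriv ?_
        simp
      have h2 := (h1.exp.const_mul (-(M / l)))
      refine h2.congr_deriv ?_
      field_simp
      ring
    have hint : IntervalIntegrable (fun s => M * (1 - s) * Real.exp (l * (-s + s ^ 2 / 2)))
        volume x 0 := by
      apply Continuous.intervalIntegrable
      fun_prop
    have hb : ‖∫ s in x..0, φ s‖ ≤
        ∫ s in x..0, M * (1 - s) * Real.exp (l * (-s + s ^ 2 / 2)) := by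
      refine intervalIntegral.norm_integral_le_of_norm_le hx ?_ hint
      refine Eventually.of_forall fun s hs => ?_
      have := h s
      have hs0 : s ≤ 0 := hs.2
      unfold wt at this
      rw [abs_of_nonpos hs0] at this
      simpa [sub_eq_add_neg] using this
    rw [intervalIntegral.integral_eq_sub_of_hasDerivAt hder hint, Real.norm_eq_abs] at hb
    rw [intervalIntegral.integral_symm, abs_neg]
    refine hb.trans ?_
    unfold wt
    rw [abs_of_nonpos hx]
    have e0 : Real.exp (l * (-0 + 0 ^ 2 / 2)) = 1 := by simp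
    rw [e0]
    have : 0 ≤ M / l := by positivity
    linarith

lemma avg_bound {l M : ℝ} (hl : 0 ≤ l) (p : ℕ) (φ : ℝ → ℝ)
    (h : ∀ s, |φ s| ≤ M * wt l s) (hM : 0 ≤ M) (x : ℝ) :
    |∫ σ in (0:ℝ)..1, σ ^ p * φ (x * σ ^ 2)| ≤ M / (p + 1) * wt l x := by
  have hint : IntervalIntegrable (fun σ : ℝ => M * wt l x * σ ^ p) volume 0 1 := by
    apply Continuous.intervalIntegrable
    fun_prop
  have hb : ‖∫ σ in (0:ℝ)..1, σ ^ p * φ (x * σ ^ 2)‖ ≤
      ∫ σ in (0:ℝ)..1, M * wt l x * σ ^ p := by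
    refine intervalIntegral.norm_integral_le_of_norm_le zero_le_one ?_ hint
    refine Eventually.of_forall fun σ hσ => ?_
    have h0 : 0 ≤ σ := hσ.1.le
    have h1 : σ ≤ 1 := hσ.2
    have h2 := h (x * σ ^ 2)
    have h3 : wt l (x * σ ^ 2) ≤ wt l x := by
      apply wt_mono hl
      rw [abs_mul, abs_of_nonneg (by positivity : 0 ≤ σ ^ 2)]
      have : σ ^ 2 ≤ 1 := pow_le_one₀ h0 h1
      calc |x| * σ ^ 2 ≤ |x| * 1 := by gcongr
        _ = |x| := mul_one _
    rw [Real.norm_eq_abs, abs_mul, abs_of_nonneg (by positivity : 0 ≤ σ ^ p)]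
    calc σ ^ p * |φ (x * σ ^ 2)| ≤ σ ^ p * (M * wt l x) := by
          gcongr
          exact h2.trans (by gcongr)
      _ = M * wt l x * σ ^ p := by ring
  rw [intervalIntegral.integral_const_mul, integral_pow, Real.norm_eq_abs] at hb
  refine hb.trans (le_of_eq ?_)
  simp
  ring

/-- the primitive of the second nonlinearity along `y` -/
noncomputable def Gf (k : ℕ) (y : ℝ → ℝ × ℝ) (x : ℝ) : ℝ :=
  ∫ s in (0:ℝ)..x, H0 k (cr s) (cl (y s).1) (cl (y s).2)

/-- the primitive of the first nonlinearity along `y` -/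
noncomputable def Ff (y : ℝ → ℝ × ℝ) (x : ℝ) : ℝ :=
  ∫ s in (0:ℝ)..x, F0 (cl (y s).1) (cl (y s).2)

/-- the integral operator -/
noncomputable def Top (k : ℕ) (y : ℝ → ℝ × ℝ) (x : ℝ) : ℝ × ℝ :=
  (1 + Ff y x,
    1 / 2 * Gf k y x + ∫ σ in (0:ℝ)..1, σ ^ (k + 1) *
      ((2 * k + 3) / k * (y (x * σ ^ 2)).1 - (k + 2) / 2 * Gf k y (x * σ ^ 2)))

lemma continuous_Fint {y : ℝ → ℝ × ℝ} (hy : Continuous y) :
    Continuous fun s => F0 (cl (y s).1) (cl (y s).2) := by
  unfold F0
  have h1 : Continuous fun s => cl (y s).1 := continuous_cl.comp (continuous_fst.comp hy)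
  have h2 : Continuous fun s => cl (y s).2 := continuous_cl.comp (continuous_snd.comp hy)
  fun_prop

lemma continuous_Hint {k : ℕ} (hk : 9 ≤ k) {y : ℝ → ℝ × ℝ} (hy : Continuous y) :
    Continuous fun s => H0 k (cr s) (cl (y s).1) (cl (y s).2) := by
  have hk' : (9:ℝ) ≤ k := by exact_mod_cast hk
  unfold H0
  have h1 : Continuous fun s => cl (y s).1 := continuous_cl.comp (continuous_fst.comp hy)
  have h2 : Continuous fun s => cl (y s).2 := continuous_cl.comp (continuous_snd.comp hy)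
  have h3 := continuous_cr
  have hne : ∀ s, (k:ℝ) + 2 * cr s * cl (y s).1 ≠ 0 := fun s => by
    have := den_ge (k := (k:ℝ)) hk' (cr_ge s) (cl_nonneg (y s).1) (cl_le (y s).1)
    linarith
  have h4 : Continuous fun s => (k:ℝ) + 2 * cr s * cl (y s).1 := by fun_prop
  have h5 : Continuous fun s => ((k:ℝ) + 2 * cr s * cl (y s).1)⁻¹ := h4.inv₀ hne
  have h6 : Continuous fun s => cl (y s).1 * (1 + 2 * cr s * cl (y s).2) /
      ((k:ℝ) + 2 * cr s * cl (y s).1) := by
    refine Continuous.div ?_ h4 hne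
    fun_prop
  fun_prop

lemma hasDerivAt_Gf {k : ℕ} (hk : 9 ≤ k) {y : ℝ → ℝ × ℝ} (hy : Continuous y) (x : ℝ) :
    HasDerivAt (Gf k y) (H0 k (cr x) (cl (y x).1) (cl (y x).2)) x := by
  have hc := continuous_Hint hk hy
  exact intervalIntegral.integral_hasDerivAt_right (hc.intervalIntegrable _ _)
    (hc.stronglyMeasurableAtFilter _ _) hc.continuousAt

lemma hasDerivAt_Ff {y : ℝ → ℝ × ℝ} (hy : Continuous y) (x : ℝ) :
    HasDerivAt (Ff y) (F0 (cl (y x).1) (cl (y x).2)) x := by
  have hc := continuous_Fint hy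
  exact intervalIntegral.integral_hasDerivAt_right (hc.intervalIntegrable _ _)
    (hc.stronglyMeasurableAtFilter _ _) hc.continuousAt

lemma continuous_Gf {k : ℕ} (hk : 9 ≤ k) {y : ℝ → ℝ × ℝ} (hy : Continuous y) :
    Continuous (Gf k y) :=
  continuous_iff_continuousAt.2 fun x => (hasDerivAt_Gf hk hy x).continuousAt

lemma continuous_Ff {y : ℝ → ℝ × ℝ} (hy : Continuous y) :
    Continuous (Ff y) :=
  continuous_iff_continuousAt.2 fun x => (hasDerivAt_Ff hy x).continuousAt

lemma continuous_avg (p : ℕ) {φ : ℝ → ℝ} (hφ : Continuous φ) :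
    Continuous fun x => ∫ σ in (0:ℝ)..1, σ ^ p * φ (x * σ ^ 2) := by
  refine intervalIntegral.continuous_parametric_intervalIntegral_of_continuous ?_
    continuous_const
  simp only [Function.uncurry_def]
  fun_prop

lemma continuous_Top {k : ℕ} (hk : 9 ≤ k) {y : ℝ → ℝ × ℝ} (hy : Continuous y) :
    Continuous (Top k y) := by
  unfold Top
  refine Continuous.prodMk ?_ ?_
  · exact continuous_const.add (continuous_Ff hy)
  · refine (continuous_const.mul (continuous_Gf hk hy)).add ?_
    have : Continuous fun x => (2 * (k:ℝ) + 3) / k * (y x).1 - (k + 2) / 2 * Gf k y x := by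
      have := continuous_Gf hk hy
      fun_prop
    exact continuous_avg (k + 1) this


lemma Ff_diff {l K : ℝ} (hl : 0 < l) (hK : 0 ≤ K) {y z : ℝ → ℝ × ℝ}
    (hy : Continuous y) (hz : Continuous z) (h : ∀ x, ‖y x - z x‖ ≤ K * wt l x) (x : ℝ) :
    |Ff y x - Ff z x| ≤ 4 * K / l * wt l x := by
  unfold Ff
  rw [← intervalIntegral.integral_sub ((continuous_Fint hy).intervalIntegrable _ _)
    ((continuous_Fint hz).intervalIntegrable _ _)]
  refine int_bound hl (by positivity) _ ?_ x
  intro s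
  have h1 := h s
  rw [Prod.norm_def, max_le_iff] at h1
  have hA : |cl (y s).1 - cl (z s).1| ≤ K * wt l s := (cl_lip _ _).trans h1.1
  have hB : |cl (y s).2 - cl (z s).2| ≤ K * wt l s := (cl_lip _ _).trans h1.2
  have h2 := F0_lip (cl_abs (y s).1) (cl_abs (y s).2) (cl_abs (z s).1) hA hB
  refine h2.trans ?_
  have hw := wt_pos l s
  have : 4 * K * 1 * wt l s ≤ 4 * K * (1 + |s|) * wt l s := by
    gcongr
    linarith [abs_nonneg s]
  linarith

/-- Lipschitz constant -/
noncomputable def Lc (k : ℝ) : ℝ := 2 * ((4 * k + 4) + (k + 3) * (2 + 2 * k) + 4 * (8 * k + 8))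

lemma Lc_pos {k : ℝ} (hk : 9 ≤ k) : 0 < Lc k := by unfold Lc; positivity

lemma Gf_diff {k : ℕ} (hk : 9 ≤ k) {l K : ℝ} (hl : 0 < l) (hK : 0 ≤ K) {y z : ℝ → ℝ × ℝ}
    (hy : Continuous y) (hz : Continuous z) (h : ∀ x, ‖y x - z x‖ ≤ K * wt l x) (x : ℝ) :
    |Gf k y x - Gf k z x| ≤ Lc k * K / l * wt l x := by
  have hk' : (9:ℝ) ≤ k := by exact_mod_cast hk
  have hL := Lc_pos hk'
  unfold Gf
  rw [← intervalIntegral.integral_sub ((continuous_Hint hk hy).intervalIntegrable _ _)
    ((continuous_Hint hk hz).intervalIntegrable _ _)]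
  refine int_bound hl (by positivity) _ ?_ x
  intro s
  have h1 := h s
  rw [Prod.norm_def, max_le_iff] at h1
  have hA : |cl (y s).1 - cl (z s).1| ≤ K * wt l s := (cl_lip _ _).trans h1.1
  have hB : |cl (y s).2 - cl (z s).2| ≤ K * wt l s := (cl_lip _ _).trans h1.2
  have h2 := H0_lip (k := (k:ℝ)) hk' (cr_ge s) (cl_nonneg (y s).1) (cl_le (y s).1)
    (cl_nonneg (y s).2) (cl_le (y s).2) (cl_nonneg (z s).1) (cl_le (z s).1)
    (cl_nonneg (z s).2) (cl_le (z s).2) hA hB
  refine h2.trans ?_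
  have hw := wt_pos l s
  have h3 : 1 + |cr s| ≤ 2 * (1 + |s|) := by
    have := cr_abs s
    have := abs_nonneg s
    linarith
  calc ((4 * (k:ℝ) + 4) + (k + 3) * (2 + 2 * k) + 4 * (8 * k + 8)) * (1 + |cr s|) * (K * wt l s)
      ≤ ((4 * (k:ℝ) + 4) + (k + 3) * (2 + 2 * k) + 4 * (8 * k + 8)) * (2 * (1 + |s|))
        * (K * wt l s) := by gcongr
    _ = Lc k * K * (1 + |s|) * wt l s := by unfold Lc; ring

lemma coef_le {k : ℝ} (hk : 9 ≤ k) : (2 * k + 3) / k / (k + 2) ≤ 1 / 4 := by
  rw [div_div, div_le_iff₀ (by positivity)]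
  nlinarith

theorem exists_sol (k : ℕ) (hk : 9 ≤ k) : ∃ y : ℝ → ℝ × ℝ, Continuous y ∧ Top k y = y := by
  have hk' : (9:ℝ) ≤ k := by exact_mod_cast hk
  have hk0 : (0:ℝ) < k := by linarith
  have hL := Lc_pos hk'
  set l : ℝ := 4 * Lc k + 16 with hl
  have hl0 : 0 < l := by positivity
  refine exists_fixed_of_weighted_contraction (Top k) (wt l) (continuous_wt l)
    (fun y hy => continuous_Top hk hy) (1 / 2) (by norm_num) (by norm_num) ?_
    (fun _ => 0) continuous_const 1 zero_le_one ?_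
  · intro y z hy hz K hK h x
    have hw := wt_pos l x
    have hFd := Ff_diff hl0 hK hy hz h
    have hGd := Gf_diff hk hl0 hK hy hz h
    rw [Prod.norm_def, max_le_iff]
    constructor
    · have e : (Top k y x - Top k z x).1 = Ff y x - Ff z x := by
        simp [Top]
      rw [e, Real.norm_eq_abs]
      refine (hFd x).trans ?_
      have : 4 * K / l ≤ 1 / 2 * K := by
        rw [div_le_iff₀ hl0]
        have : 0 ≤ K * Lc k := by positivity
        rw [hl]; nlinarith
      gcongr
    · set φ : ℝ → ℝ := fun x => (2 * (k:ℝ) + 3) / k * ((y x).1 - (z x).1)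
        - (k + 2) / 2 * (Gf k y x - Gf k z x) with hφ
      have e : (Top k y x - Top k z x).2 = 1 / 2 * (Gf k y x - Gf k z x) +
          ∫ σ in (0:ℝ)..1, σ ^ (k + 1) * φ (x * σ ^ 2) := by
        have hc1 : Continuous fun σ : ℝ => σ ^ (k + 1) *
            ((2 * (k:ℝ) + 3) / k * (y (x * σ ^ 2)).1 - (k + 2) / 2 * Gf k y (x * σ ^ 2)) := by
          have := continuous_Gf hk hy
          fun_prop
        have hc2 : Continuous fun σ : ℝ => σ ^ (k + 1) *
            ((2 * (k:ℝ) + 3) / k * (z (x * σ ^ 2)).1 - (k + 2) / 2 * Gf k z (x * σ ^ 2)) := by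
          have := continuous_Gf hk hz
          fun_prop
        have h1 := intervalIntegral.integral_sub (hc1.intervalIntegrable 0 1 (μ := volume))
          (hc2.intervalIntegrable 0 1)
        have h2 : (∫ σ in (0:ℝ)..1, σ ^ (k + 1) * φ (x * σ ^ 2)) =
            ∫ σ in (0:ℝ)..1, (σ ^ (k + 1) *
            ((2 * (k:ℝ) + 3) / k * (y (x * σ ^ 2)).1 - (k + 2) / 2 * Gf k y (x * σ ^ 2))
            - σ ^ (k + 1) *
            ((2 * (k:ℝ) + 3) / k * (z (x * σ ^ 2)).1 - (k + 2) / 2 * Gf k z (x * σ ^ 2))) := by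
          congr 1
          funext σ
          simp only [hφ]
          ring
        rw [h2, h1]
        simp only [Top, Prod.snd_sub]
        ring
      set M : ℝ := (2 * (k:ℝ) + 3) / k * K + (k + 2) / 2 * (Lc k * K / l) with hM
      have hM0 : 0 ≤ M := by positivity
      have hφb : ∀ s, |φ s| ≤ M * wt l s := by
        intro s
        have h1 := h s
        rw [Prod.norm_def, max_le_iff] at h1
        have h2 : |(y s).1 - (z s).1| ≤ K * wt l s := h1.1
        have h3 := hGd s
        have i1 : |(2 * (k:ℝ) + 3) / k * ((y s).1 - (z s).1)| ≤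
            (2 * (k:ℝ) + 3) / k * (K * wt l s) := by
          rw [abs_mul, abs_of_pos (by positivity : (0:ℝ) < (2 * (k:ℝ) + 3) / k)]
          gcongr
        have i2 : |((k:ℝ) + 2) / 2 * (Gf k y s - Gf k z s)| ≤
            ((k:ℝ) + 2) / 2 * (Lc k * K / l * wt l s) := by
          rw [abs_mul, abs_of_pos (by positivity : (0:ℝ) < ((k:ℝ) + 2) / 2)]
          gcongr
        refine (abs_sub _ _).trans ?_
        rw [hM]
        linarith
      have hav := avg_bound hl0.le (k + 1) φ hφb hM0 x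
      have hG := hGd x
      rw [e, Real.norm_eq_abs]
      refine (abs_add_le _ _).trans ?_
      rw [abs_mul, abs_of_pos (by norm_num : (0:ℝ) < 1 / 2)]
      have hcast : (((k + 1 : ℕ) : ℝ) + 1) = k + 2 := by push_cast; ring
      rw [hcast] at hav
      have hM2 : M / (k + 2) = (2 * (k:ℝ) + 3) / k / (k + 2) * K + 1 / 2 * (Lc k * K / l) := by
        rw [hM]; field_simp
      have hc := coef_le hk'
      have hLl : Lc k * K / l ≤ 1 / 4 * K := by
        rw [div_le_iff₀ hl0]
        have : 0 ≤ K * Lc k := by positivity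
        rw [hl]; nlinarith
      have h1 : (2 * (k:ℝ) + 3) / k / (k + 2) * K ≤ 1 / 4 * K := by gcongr
      have h2 : 1 / 2 * |Gf k y x - Gf k z x| ≤ 1 / 2 * (1 / 4 * K * wt l x) := by
        have : Lc k * K / l * wt l x ≤ 1 / 4 * K * wt l x := by gcongr
        linarith
      have h3 : M / (k + 2) * wt l x ≤ (1 / 4 * K + 1 / 2 * (1 / 4 * K)) * wt l x := by
        rw [hM2]; gcongr
      linarith
  · intro x
    have hw := wt_ge_one hl0.le x
    have hG : ∀ x, Gf k (fun _ => (0 : ℝ × ℝ)) x = 0 := by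
      intro x
      simp [Gf, H0, cl_zero]
    have hF : Ff (fun _ => (0 : ℝ × ℝ)) x = 0 := by
      simp [Ff, F0, cl_zero]
    simp [Top, hG, hF, Prod.norm_def]
    exact hw

end Vale.Agent.P252
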