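import Mathlib
import Vale.Agent.Lib.P252.Sol
import Vale.Agent.Lib.P252.Avg

/-!
Invariant region for the planar system and smoothness of the solution.
-/

open Filter Topology Set MeasureTheory

namespace Vale.Agent.P252

lemma deriv_nonpos_of_left {f : ℝ → ℝ} {f' a x : ℝ} (h : HasDerivAt f f' x) (hx : a < x)
    (hl : ∀ z, a ≤ z → z < x → f x ≤ f z) : f' ≤ 0 := by
  by_contra hc
  push Not at hc
  rw [hasDerivAt_iff_tendsto_slope] at h
  have h1 := h.eventually (lt_mem_nhds hc)
  have h2 : ∀ᶠ z in 𝓝[<] x, 0 < slope f x z :=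
    h1.filter_mono (nhdsWithin_mono _ (fun z hz => ne_of_lt hz))
  have h3 : ∀ᶠ z in 𝓝[<] x, a ≤ z ∧ z < x := by
    filter_upwards [Ico_mem_nhdsLT hx] with z hz using hz
  obtain ⟨z, hz1, hz2, hz3⟩ := (h2.and h3).exists
  rw [slope_def_field] at hz1
  have h4 : f x ≤ f z := hl z hz2 hz3
  have h5 : (f z - f x) / (z - x) ≤ 0 := div_nonpos_of_nonneg_of_nonpos (by linarith) (by linarith)
  linarith

/-- the data extracted from the fixed point -/
structure Data (k : ℕ) (α β β' : ℝ → ℝ) : Prop where
  ca : Continuous α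
  cb : Continuous β
  da : ∀ x, HasDerivAt α (F0 (cl (α x)) (cl (β x))) x
  db : ∀ x, HasDerivAt β (β' x) x
  eqb : ∀ x, 2 * x * β' x = -(k + 2) * β x + (2 * k + 3) / k * α x
    + x * H0 k (cr x) (cl (α x)) (cl (β x))
  a0 : α 0 = 1
  b0 : β 0 = (2 * k + 3) / k / (k + 2)
  repr : ∃ G : ℝ → ℝ, (∀ x, HasDerivAt G (H0 k (cr x) (cl (α x)) (cl (β x))) x) ∧
    ∀ x, β x = 1 / 2 * G x + avg (k + 1) (fun x => (2 * k + 3) / k * α x - (k + 2) / 2 * G x) x

theorem exists_data (k : ℕ) (hk : 9 ≤ k) : ∃ α β β', Data k α β β' := by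
  have hk' : (9:ℝ) ≤ k := by exact_mod_cast hk
  have hk0 : (0:ℝ) < k := by linarith
  obtain ⟨y, hy, hT⟩ := exists_sol k hk
  have h1 : ∀ x, (y x).1 = 1 + Ff y x := fun x => by
    have := congrArg Prod.fst (congrFun hT x)
    simpa [Top] using this.symm
  have h2 : ∀ x, (y x).2 = 1 / 2 * Gf k y x +
      avg (k + 1) (fun x => (2 * k + 3) / k * (y x).1 - (k + 2) / 2 * Gf k y x) x := fun x => by
    have := congrArg Prod.snd (congrFun hT x)
    simpa [Top, avg] using this.symm
  set α : ℝ → ℝ := fun x => (y x).1 with hα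
  set β : ℝ → ℝ := fun x => (y x).2 with hβ
  set H : ℝ → ℝ := fun x => H0 k (cr x) (cl (α x)) (cl (β x)) with hH
  have hG : ∀ x, HasDerivAt (Gf k y) (H x) x := fun x => hasDerivAt_Gf hk hy x
  have hHc : Continuous H := continuous_Hint hk hy
  have hF : ∀ x, HasDerivAt α (F0 (cl (α x)) (cl (β x))) x := fun x => by
    have := (hasDerivAt_Ff hy x).const_add 1
    refine this.congr_of_eventuallyEq ?_
    exact Eventually.of_forall fun z => h1 z
  have hFc : Continuous fun x => F0 (cl (α x)) (cl (β x)) := continuous_Fint hy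
  set φ : ℝ → ℝ := fun x => (2 * k + 3) / k * α x - (k + 2) / 2 * Gf k y x with hφ
  set φ' : ℝ → ℝ := fun x => (2 * k + 3) / k * F0 (cl (α x)) (cl (β x)) - (k + 2) / 2 * H x
    with hφ'
  have hφd : ∀ x, HasDerivAt φ (φ' x) x := fun x =>
    ((hF x).const_mul _).sub ((hG x).const_mul _)
  have hφ'c : Continuous φ' := by
    have : Continuous fun x => (2 * (k:ℝ) + 3) / k * F0 (cl (α x)) (cl (β x)) :=
      continuous_const.mul hFc
    exact this.sub (continuous_const.mul hHc)
  refine ⟨α, β, fun x => 1 / 2 * H x + avg (k + 3) φ' x, ?_, ?_, hF, ?_, ?_, ?_, ?_, ?_⟩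
  · exact continuous_fst.comp hy
  · exact continuous_snd.comp hy
  · intro x
    have hx : -(|x| + 1) < x := by linarith [neg_abs_le x]
    have hav := hasDerivAt_avg (δ := |x| + 1) (by positivity) (k + 1) (fun x _ => hφd x)
      hφ'c.continuousOn hx
    have := ((hG x).const_mul (1 / 2)).add hav
    refine this.congr_of_eventuallyEq ?_
    exact Eventually.of_forall fun z => h2 z
  · intro x
    have hx : -(|x| + 1) < x := by linarith [neg_abs_le x]
    have hib := avg_ibp (δ := |x| + 1) (by positivity) (k + 1) (fun x _ => hφd x)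
      hφ'c.continuousOn hx
    have h3 := h2 x
    change β x = 1 / 2 * Gf k y x + avg (k + 1) φ x at h3
    have e1 : (((k + 1 : ℕ) : ℝ) + 1) = k + 2 := by push_cast; ring
    rw [e1] at hib
    have e2 : k + 1 + 2 = k + 3 := rfl
    rw [e2] at hib
    have e3 : φ x = (2 * k + 3) / k * α x - (k + 2) / 2 * Gf k y x := rfl
    calc 2 * x * (1 / 2 * H x + avg (k + 3) φ' x)
        = x * H x + 2 * x * avg (k + 3) φ' x := by ring
      _ = x * H x + (φ x - (k + 2) * avg (k + 1) φ x) := by rw [hib]
      _ = x * H x + ((2 * k + 3) / k * α x - (k + 2) / 2 * Gf k y x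
            - (k + 2) * avg (k + 1) φ x) := by rw [e3]
      _ = -(k + 2) * (1 / 2 * Gf k y x + avg (k + 1) φ x) + (2 * k + 3) / k * α x + x * H x := by
          ring
      _ = -(k + 2) * β x + (2 * k + 3) / k * α x + x * H x := by rw [← h3]
  · have := h1 0
    simpa [Ff] using this
  · have h3 := h2 0
    have hα0 : α 0 = 1 := by
      have := h1 0
      simpa [Ff] using this
    have hG0 : Gf k y 0 = 0 := by simp [Gf]
    change β 0 = 1 / 2 * Gf k y 0 + avg (k + 1) φ 0 at h3
    have hφ0 : φ 0 = (2 * k + 3) / k := by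
      simp only [hφ]
      rw [hα0, hG0]; ring
    have hav : avg (k + 1) φ 0 = (2 * k + 3) / k / (k + 2) := by
      unfold avg
      simp only [zero_mul]
      rw [intervalIntegral.integral_mul_const, integral_pow, hφ0]
      push_cast
      field_simp
      simp
      ring
    rw [h3, hG0, hav]; ring
  · exact ⟨Gf k y, hG, h2⟩

/-- the good region -/
def Good (α β : ℝ → ℝ) (x : ℝ) : Prop :=
  0 < α x ∧ α x < 2 ∧ 0 < β x ∧ β x < 5 / 9 * α x ∧ x * α x < 9 / 2

lemma isOpen_good {α β : ℝ → ℝ} (ha : Continuous α) (hb : Continuous β) :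
    IsOpen {x | Good α β x} := by
  unfold Good
  refine IsOpen.inter (isOpen_lt continuous_const ha) ?_
  refine IsOpen.inter (isOpen_lt ha continuous_const) ?_
  refine IsOpen.inter (isOpen_lt continuous_const hb) ?_
  refine IsOpen.inter (isOpen_lt hb (continuous_const.mul ha)) ?_
  exact isOpen_lt (continuous_id.mul ha) continuous_const

/-- the barrier polynomial is positive -/
lemma Q_pos {k a : ℝ} (hk : 9 ≤ k) (ha : 0 < a) (ha' : a < 9 / 2) :
    0 < (45 * k ^ 2 - 72 * k - 243) + (25 * k ^ 2 - 110 * k - 387) * a - 280 * a ^ 2 := by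
  have h0 : 0 < 45 * k ^ 2 - 72 * k - 243 := by nlinarith
  have h1 : 0 ≤ (k - 9) * (5 * k + 27) := by
    apply mul_nonneg <;> linarith
  have h2 : 0 < a * (9 / 2 - a) := by
    apply mul_pos ha; linarith
  have h3 : 0 < (9 / 2 - a) * (45 * k ^ 2 - 72 * k - 243) := by
    apply mul_pos _ h0; linarith
  have h4 : 0 ≤ a * ((k - 9) * (5 * k + 27)) := by positivity
  nlinarith

lemma H0_zero {k x A : ℝ} (hk : 9 ≤ k) (hx : 0 < x) (hA : 0 < A) :
    0 < (2 * k + 3) / k * A + x * H0 k x A 0 := by
  have hk0 : 0 < k := by linarith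
  have hd : 0 < k + 2 * x * A := by positivity
  have e : (2 * k + 3) / k * A + x * H0 k x A 0 = A + (k + 3) * A / (k + 2 * x * A) := by
    unfold H0
    field_simp
    ring
  rw [e]; positivity

lemma H0_top {k x A : ℝ} (hk : 9 ≤ k) (hx : 0 < x) (hA : 0 < A) (hxA : x * A < 9 / 2) :
    0 < 5 / 9 * (x * A * (5 / 9 * A - A)) - (-(k + 2) * (5 / 9 * A) + (2 * k + 3) / k * A
      + x * H0 k x A (5 / 9 * A)) := by
  have hk0 : 0 < k := by linarith
  have hd : 0 < k + 2 * x * A := by positivity
  have e : 5 / 9 * (x * A * (5 / 9 * A - A)) - (-(k + 2) * (5 / 9 * A) + (2 * k + 3) / k * A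
      + x * H0 k x A (5 / 9 * A)) = A / (81 * (k + 2 * x * A)) *
      ((45 * k ^ 2 - 72 * k - 243) + (25 * k ^ 2 - 110 * k - 387) * (x * A)
        - 280 * (x * A) ^ 2) := by
    unfold H0
    field_simp
    ring
  rw [e]
  have := Q_pos hk (mul_pos hx hA) hxA
  positivity

theorem good_of_data {k : ℕ} (hk : 9 ≤ k) {α β β' : ℝ → ℝ} (D : Data k α β β') :
    ∀ x, 0 ≤ x → Good α β x := by
  have hk' : (9:ℝ) ≤ k := by exact_mod_cast hk
  by_contra hcon
  push Not at hcon
  set B : Set ℝ := {x | 0 ≤ x ∧ ¬ Good α β x} with hB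
  have hBne : B.Nonempty := hcon
  have hBcl : IsClosed B := by
    have : B = Ici 0 ∩ {x | Good α β x}ᶜ := by
      ext x; simp [hB]
    rw [this]
    exact isClosed_Ici.inter (isOpen_good D.ca D.cb).isClosed_compl
  have hBbd : BddBelow B := ⟨0, fun x hx => hx.1⟩
  set m := sInf B with hm
  have hmB : m ∈ B := hBcl.csInf_mem hBne hBbd
  have hlt : ∀ x, 0 ≤ x → x < m → Good α β x := by
    intro x hx0 hxm
    by_contra hg
    exact absurd (csInf_le hBbd (⟨hx0, hg⟩ : x ∈ B)) (not_le.2 hxm)
  have hc := coef_le hk'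
  have hc0 : 0 < (2 * (k:ℝ) + 3) / k / (k + 2) := by positivity
  have hg0 : Good α β 0 := by
    refine ⟨?_, ?_, ?_, ?_, ?_⟩
    · rw [D.a0]; norm_num
    · rw [D.a0]; norm_num
    · rw [D.b0]; exact hc0
    · rw [D.b0, D.a0]; linarith
    · rw [zero_mul]; norm_num
  have hm0 : 0 < m := by
    rcases hmB.1.lt_or_eq with h | h
    · exact h
    · exact absurd hg0 (by rw [h]; exact hmB.2)
  -- derivative of `α` on the interval
  have hda : ∀ x, 0 ≤ x → x < m → HasDerivAt α (1 / 2 * α x * (β x - α x)) x := by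
    intro x hx0 hxm
    obtain ⟨g1, g2, g3, g4, g5⟩ := hlt x hx0 hxm
    have := D.da x
    rw [cl_of_mem g1.le g2.le, cl_of_mem g3.le (by linarith)] at this
    exact this
  have hint : interior (Icc 0 m) = Ioo 0 m := interior_Icc
  -- Step 1: `α ≤ 1`
  have hanti : AntitoneOn α (Icc 0 m) := by
    refine antitoneOn_of_deriv_nonpos (convex_Icc 0 m) D.ca.continuousOn ?_ ?_
    · intro x hx
      rw [hint] at hx
      exact (hda x hx.1.le hx.2).differentiableAt.differentiableWithinAt
    · intro x hx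
      rw [hint] at hx
      obtain ⟨g1, g2, g3, g4, g5⟩ := hlt x hx.1.le hx.2
      rw [(hda x hx.1.le hx.2).deriv]
      have : β x - α x ≤ 0 := by linarith
      have h2 : 0 ≤ 1 / 2 * α x := by linarith
      exact mul_nonpos_of_nonneg_of_nonpos h2 this
  have hle1 : ∀ x, 0 ≤ x → x ≤ m → α x ≤ 1 := by
    intro x hx0 hxm
    have := hanti (left_mem_Icc.2 hm0.le) ⟨hx0, hxm⟩ hx0
    rwa [D.a0] at this
  -- Step 2: `α m > 0`
  have hapos : 0 < α m := by
    have hmono : MonotoneOn (fun x => Real.exp (x / 2) * α x) (Icc 0 m) := by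
      have hder : ∀ x, 0 ≤ x → x < m → HasDerivAt (fun x => Real.exp (x / 2) * α x)
          (Real.exp (x / 2) * (1 / 2) * α x
            + Real.exp (x / 2) * (1 / 2 * α x * (β x - α x))) x := by
        intro x hx0 hxm
        have h1 : HasDerivAt (fun x : ℝ => Real.exp (x / 2)) (Real.exp (x / 2) * (1 / 2)) x := by
          have := ((hasDerivAt_id x).div_const 2).exp
          simpa using this
        exact h1.mul (hda x hx0 hxm)
      refine monotoneOn_of_deriv_nonneg (convex_Icc 0 m) ?_ ?_ ?_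
      · have := D.ca
        fun_prop
      · intro x hx
        rw [hint] at hx
        exact (hder x hx.1.le hx.2).differentiableAt.differentiableWithinAt
      · intro x hx
        rw [hint] at hx
        obtain ⟨g1, g2, g3, g4, g5⟩ := hlt x hx.1.le hx.2
        rw [(hder x hx.1.le hx.2).deriv]
        have h1 := hle1 x hx.1.le hx.2.le
        have h2 := Real.exp_pos (x / 2)
        have e : Real.exp (x / 2) * (1 / 2) * α x + Real.exp (x / 2) * (1 / 2 * α x * (β x - α x))
            = Real.exp (x / 2) * (1 / 2 * α x) * (1 - α x + β x) := by ring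
        rw [e]
        have h3 : 0 ≤ 1 - α x + β x := by linarith
        positivity
    have := hmono (left_mem_Icc.2 hm0.le) (right_mem_Icc.2 hm0.le) hm0.le
    simp only [zero_div, Real.exp_zero, D.a0, mul_one] at this
    by_contra hneg
    push Not at hneg
    have h2 := Real.exp_pos (m / 2)
    have : Real.exp (m / 2) * α m ≤ 0 := mul_nonpos_of_nonneg_of_nonpos h2.le hneg
    linarith
  have hlem : α m ≤ 1 := hle1 m hm0.le le_rfl
  -- limits of the weak inequalities
  have hcl : ∀ (f : ℝ → ℝ), Continuous f → (∀ x, 0 ≤ x → x < m → 0 < f x) → 0 ≤ f m := by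
    intro f hf h
    have : m ∈ closure (Ico 0 m) := by
      rw [closure_Ico hm0.ne]; exact right_mem_Icc.2 hm0.le
    have h2 : closure (Ico 0 m) ⊆ {x | 0 ≤ f x} :=
      closure_minimal (fun x hx => (h x hx.1 hx.2).le) (isClosed_le continuous_const hf)
    exact h2 this
  have hb0 : 0 ≤ β m := hcl β D.cb fun x h1 h2 => (hlt x h1 h2).2.2.1
  have hg0' : 0 ≤ 5 / 9 * α m - β m := by
    refine hcl (fun x => 5 / 9 * α x - β x) (by have := D.ca; have := D.cb; fun_prop) ?_
    intro x h1 h2
    have := (hlt x h1 h2).2.2.2.1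
    linarith
  have hclam : cl (α m) = α m := cl_of_mem hapos.le (by linarith)
  have hclbm : cl (β m) = β m := cl_of_mem hb0 (by linarith)
  have hcrm : cr m = m := cr_of_ge (by linarith)
  -- Step 4: `m α m < 9/2`
  have hψ : m * α m < 9 / 2 := by
    have hmono : MonotoneOn (fun x => Real.exp x * (9 / 2 - x * α x)) (Icc 0 m) := by
      have hder : ∀ x, 0 ≤ x → x < m → HasDerivAt (fun x => Real.exp x * (9 / 2 - x * α x))
          (Real.exp x * (9 / 2 - x * α x)
            + Real.exp x * (-(1 * α x + x * (1 / 2 * α x * (β x - α x))))) x := by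
        intro x hx0 hxm
        have h1 := ((hasDerivAt_id x).mul (hda x hx0 hxm)).const_sub (9 / 2)
        exact (Real.hasDerivAt_exp x).mul h1
      refine monotoneOn_of_deriv_nonneg (convex_Icc 0 m) ?_ ?_ ?_
      · have := D.ca
        fun_prop
      · intro x hx
        rw [hint] at hx
        exact (hder x hx.1.le hx.2).differentiableAt.differentiableWithinAt
      · intro x hx
        rw [hint] at hx
        obtain ⟨g1, g2, g3, g4, g5⟩ := hlt x hx.1.le hx.2
        rw [(hder x hx.1.le hx.2).deriv]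
        have h1 := hle1 x hx.1.le hx.2.le
        have h2 := Real.exp_pos x
        have hx0 := hx.1
        have e : Real.exp x * (9 / 2 - x * α x)
            + Real.exp x * (-(1 * α x + x * (1 / 2 * α x * (β x - α x))))
            = Real.exp x * ((9 / 2 - x * α x) * (1 - 2 / 9 * α x)
              + 1 / 2 * x * α x * (5 / 9 * α x - β x)) := by ring
        rw [e]
        have h3 : 0 ≤ 9 / 2 - x * α x := by linarith
        have h4 : 0 ≤ 1 - 2 / 9 * α x := by linarith
        have h5 : 0 ≤ 5 / 9 * α x - β x := by linarith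
        positivity
    have := hmono (left_mem_Icc.2 hm0.le) (right_mem_Icc.2 hm0.le) hm0.le
    simp only [Real.exp_zero, zero_mul, sub_zero, one_mul] at this
    by_contra hneg
    push Not at hneg
    have h2 := Real.exp_pos m
    have : Real.exp m * (9 / 2 - m * α m) ≤ 0 :=
      mul_nonpos_of_nonneg_of_nonpos h2.le (by linarith)
    linarith
  -- Step 3: `β m > 0`
  have hbpos : 0 < β m := by
    rcases hb0.lt_or_eq with h | h
    · exact h
    · exfalso
      have h1 := deriv_nonpos_of_left (D.db m) hm0 (fun z hz0 hzm => by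
        rw [← h]; exact (hlt z hz0 hzm).2.2.1.le)
      have h2 := D.eqb m
      rw [hclam, hclbm, hcrm, ← h] at h2
      have h3 := H0_zero hk' hm0 hapos
      have h4 : 2 * m * β' m ≤ 0 := mul_nonpos_of_nonneg_of_nonpos (by linarith) h1
      linarith
  -- Step 5: `β m < 5/9 α m`
  have hglt : β m < 5 / 9 * α m := by
    rcases hg0'.lt_or_eq with h | h
    · linarith
    · exfalso
      have hbm : β m = 5 / 9 * α m := by linarith
      have hda' := D.da m
      rw [hclam, hclbm] at hda'
      have h0 := (hda'.const_mul (5 / 9)).sub (D.db m)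
      have h1 := deriv_nonpos_of_left h0 hm0 (fun z hz0 hzm => by
        have := (hlt z hz0 hzm).2.2.2.1
        simp only [Pi.sub_apply]
        linarith)
      have h2 := D.eqb m
      rw [hclam, hclbm, hcrm, hbm] at h2
      have h3 := H0_top hk' hm0 hapos hψ
      have h4 : 2 * m * (5 / 9 * F0 (α m) (β m) - β' m) ≤ 0 :=
        mul_nonpos_of_nonneg_of_nonpos (by linarith) h1
      have h5 : 2 * m * (5 / 9 * F0 (α m) (β m)) = 5 / 9 * (m * α m * (5 / 9 * α m - α m)) := by
        unfold F0; rw [hbm]; ring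
      linarith
  exact hmB.2 ⟨hapos, by linarith, hbpos, hglt, hψ⟩

end Vale.Agent.P252
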