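import Mathlib
import Vale.Agent.Lib.P252.DD
import Vale.Agent.Lib.P252.Alg

/-!
The function `u = sqrt(x₀² + T(ρ))` solves the affine maximal equation.
-/

open Set MeasureTheory
open scoped ContDiff Matrix

namespace Vale.Agent.P252

/-- the data produced by the profile equation -/
structure Profile (k : ℕ) (δ : ℝ) (α β β' : ℝ → ℝ) : Prop where
  k1 : 1 ≤ k
  δ_pos : 0 < δ
  cα : Continuous α
  sα : ContDiffOn ℝ ∞ α (Ioi (-δ))
  sβ : ContDiffOn ℝ ∞ β (Ioi (-δ))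
  dα : ∀ x, -δ < x → HasDerivAt α (1 / 2 * α x * (β x - α x)) x
  dβ : ∀ x, -δ < x → HasDerivAt β (β' x) x
  pos : ∀ x, 0 ≤ x → 0 < α x ∧ 0 < β x
  eq : ∀ x, 0 ≤ x → 2 * x * β' x = -2 * β x + (1 + x * β x) *
    (-k * β x + α x + (k + 3) * α x * ((1 + 2 * x * β x) / (k + 2 * x * α x)))

variable {k : ℕ} {δ : ℝ} {α β β' : ℝ → ℝ}

/-- `T(t) = exp(∫₀ᵗ α)` -/
noncomputable def Tf (α : ℝ → ℝ) (t : ℝ) : ℝ := Real.exp (∫ s in (0:ℝ)..t, α s)

lemma Tf_pos (α : ℝ → ℝ) (t : ℝ) : 0 < Tf α t := Real.exp_pos _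

lemma Tf_zero (α : ℝ → ℝ) : Tf α 0 = 1 := by simp [Tf]

lemma hasDerivAt_Tf (h : Continuous α) (t : ℝ) : HasDerivAt (Tf α) (α t * Tf α t) t := by
  have h1 : HasDerivAt (fun t => ∫ s in (0:ℝ)..t, α s) (α t) t :=
    intervalIntegral.integral_hasDerivAt_right (h.intervalIntegrable _ _)
      (h.stronglyMeasurableAtFilter _ _) h.continuousAt
  have h2 := h1.exp
  unfold Tf
  convert h2 using 1
  ring

lemma contDiffOn_Tf (P : Profile k δ α β β') : ContDiffOn ℝ ∞ (Tf α) (Ioi (-δ)) := by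
  have h1 : ∀ t, HasDerivAt (fun t => ∫ s in (0:ℝ)..t, α s) (α t) t := fun t =>
    intervalIntegral.integral_hasDerivAt_right (P.cα.intervalIntegrable _ _)
      (P.cα.stronglyMeasurableAtFilter _ _) P.cα.continuousAt
  have h2 : ContDiffOn ℝ ∞ (fun t => ∫ s in (0:ℝ)..t, α s) (Ioi (-δ)) := by
    rw [contDiffOn_infty_iff_deriv_of_isOpen isOpen_Ioi]
    exact ⟨fun t _ => (h1 t).differentiableAt.differentiableWithinAt,
      P.sα.congr fun t _ => (h1 t).deriv⟩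
  exact Real.contDiff_exp.comp_contDiffOn h2

/-- the solution -/
noncomputable def uF (α : ℝ → ℝ) (x : EuclideanSpace ℝ (Fin (k + 1))) : ℝ :=
  Real.sqrt (x 0 ^ 2 + Tf α (rho x))

lemma uF_arg_pos (α : ℝ → ℝ) (x : EuclideanSpace ℝ (Fin (k + 1))) :
    0 < x 0 ^ 2 + Tf α (rho x) := by
  have := Tf_pos α (rho x)
  positivity

lemma uF_pos (α : ℝ → ℝ) (x : EuclideanSpace ℝ (Fin (k + 1))) : 0 < uF α x :=
  Real.sqrt_pos.2 (uF_arg_pos α x)

lemma uF_sq (α : ℝ → ℝ) (x : EuclideanSpace ℝ (Fin (k + 1))) :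
    uF α x ^ 2 = x 0 ^ 2 + Tf α (rho x) :=
  Real.sq_sqrt (uF_arg_pos α x).le

lemma contDiff_rho : ContDiff ℝ ∞ (rho (k := k)) := by
  unfold rho
  fun_prop

lemma contDiff_uF (P : Profile k δ α β β') : ContDiff ℝ ∞ (uF (k := k) α) := by
  rw [contDiff_iff_contDiffAt]
  intro x
  have h1 : ContDiffAt ℝ ∞ (Tf α) (rho x) :=
    (contDiffOn_Tf P).contDiffAt (Ioi_mem_nhds (by linarith [rho_nonneg x, P.δ_pos]))
  have h2 : ContDiffAt ℝ ∞ (fun y => Tf α (rho y)) x :=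
    h1.comp x contDiff_rho.contDiffAt
  have h3 : ContDiffAt ℝ ∞ (fun y : EuclideanSpace ℝ (Fin (k + 1)) => y 0 ^ 2 + Tf α (rho y)) x := by
    fun_prop
  exact h3.sqrt (uF_arg_pos α x).ne'

lemma DD_uF (P : Profile k δ α β β') (x : EuclideanSpace ℝ (Fin (k + 1))) :
    DD (uF α) x (x 0 * (uF α x)⁻¹) (1 / 2 * (α (rho x) * Tf α (rho x)) * (uF α x)⁻¹) := by
  have h1 := (DD.fst x).pow 2
  have h2 : DD (fun y => Tf α (rho y)) x 0 _ := DD.comp_rho (hasDerivAt_Tf P.cα (rho x))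
  have h3 := (h1.add h2).sqrt (uF_arg_pos α x)
  have hu := (uF_pos α x).ne'
  refine h3.congr ?_ ?_
  · show _ / (2 * uF α x) = _
    simp
    field_simp
  · show _ / (2 * uF α x) = _
    field_simp
    ring

lemma DD_P (P : Profile k δ α β β') (x : EuclideanSpace ℝ (Fin (k + 1))) :
    DD (fun y => y 0 * (uF α y)⁻¹) x (Tf α (rho x) / uF α x ^ 3)
      (-(x 0 * α (rho x) * Tf α (rho x)) / (2 * uF α x ^ 3)) := by
  have hu := (uF_pos α x).ne'
  have h1 := (DD.fst x).mul ((DD_uF P x).inv hu)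
  have hT : Tf α (rho x) = uF α x ^ 2 - x 0 ^ 2 := by rw [uF_sq]; ring
  refine h1.congr ?_ ?_
  · rw [hT]
    field_simp
    ring
  · field_simp
    ring

lemma DD_Q (P : Profile k δ α β β') (x : EuclideanSpace ℝ (Fin (k + 1))) :
    DD (fun y => 1 / 2 * (α (rho y) * Tf α (rho y)) * (uF α y)⁻¹) x
      (-(x 0 * α (rho x) * Tf α (rho x)) / (2 * uF α x ^ 3))
      ((α (rho x) * β (rho x) * Tf α (rho x) / uF α x
        + α (rho x) ^ 2 * Tf α (rho x) * x 0 ^ 2 / uF α x ^ 3) / 4) := by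
  have hu := (uF_pos α x).ne'
  have hρ : -δ < rho x := by linarith [rho_nonneg x, P.δ_pos]
  have h1 := (P.dα (rho x) hρ).mul (hasDerivAt_Tf P.cα (rho x))
  have h2 := (DD.comp_rho h1).const_mul (1 / 2)
  have h3 := h2.mul ((DD_uF P x).inv hu)
  have hx : x 0 ^ 2 = uF α x ^ 2 - Tf α (rho x) := by rw [uF_sq]; ring
  refine h3.congr ?_ ?_
  · simp only [Pi.mul_apply]
    field_simp
    ring
  · rw [hx]
    simp only [Pi.mul_apply]
    field_simp
    ring

lemma hessian_uF (P : Profile k δ α β β') (x : EuclideanSpace ℝ (Fin (k + 1))) :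
    hessian (uF α) x = Mz (zvec x) (Tf α (rho x) / uF α x ^ 3)
      (-(x 0 * α (rho x) * Tf α (rho x)) / uF α x ^ 3) (α (rho x) * Tf α (rho x) / uF α x)
      (α (rho x) * β (rho x) * Tf α (rho x) / uF α x
        + α (rho x) ^ 2 * Tf α (rho x) * x 0 ^ 2 / uF α x ^ 3) := by
  have hu := (uF_pos α x).ne'
  rw [hessian_eq (fun y => DD_uF P y) (DD_P P x) (DD_Q P x)]
  congr 1
  · field_simp
  · field_simp
  · ring

lemma posDef_uF (P : Profile k δ α β β') (x : EuclideanSpace ℝ (Fin (k + 1))) :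
    (hessian (uF α) x).PosDef := by
  have hu := uF_pos α x
  obtain ⟨hα, hβ⟩ := P.pos (rho x) (rho_nonneg x)
  have hT := Tf_pos α (rho x)
  rw [hessian_uF P x]
  apply Mz_posDef
  · positivity
  · positivity
  · have : Tf α (rho x) / uF α x ^ 3 * (α (rho x) * β (rho x) * Tf α (rho x) / uF α x
        + α (rho x) ^ 2 * Tf α (rho x) * x 0 ^ 2 / uF α x ^ 3)
      = (-(x 0 * α (rho x) * Tf α (rho x)) / uF α x ^ 3) ^ 2 +
        α (rho x) * β (rho x) * Tf α (rho x) ^ 2 / uF α x ^ 4 := by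
      field_simp
      ring
    rw [this]
    have : 0 ≤ α (rho x) * β (rho x) * Tf α (rho x) ^ 2 / uF α x ^ 4 := by positivity
    linarith

lemma det_uF (P : Profile k δ α β β') (x : EuclideanSpace ℝ (Fin (k + 1))) :
    (hessian (uF α) x).det = α (rho x) ^ k * Tf α (rho x) ^ (k + 1) *
      (1 + rho x * β (rho x)) / uF α x ^ (k + 3) := by
  have hu := (uF_pos α x).ne'
  obtain ⟨hα, hβ⟩ := P.pos (rho x) (rho_nonneg x)
  have hT := Tf_pos α (rho x)
  have hc : α (rho x) * Tf α (rho x) / uF α x ≠ 0 := by positivity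
  have h := Mz_det (zvec x) (a := Tf α (rho x) / uF α x ^ 3)
    (b := -(x 0 * α (rho x) * Tf α (rho x)) / uF α x ^ 3)
    (d := α (rho x) * β (rho x) * Tf α (rho x) / uF α x
        + α (rho x) ^ 2 * Tf α (rho x) * x 0 ^ 2 / uF α x ^ 3) (sum_zvec x) hc
  rw [← hessian_uF P x] at h
  apply mul_right_cancel₀ hc
  rw [h, div_pow, mul_pow]
  field_simp
  ring

/-- the inverse Hessian -/
lemma inv_uF (P : Profile k δ α β β') (x : EuclideanSpace ℝ (Fin (k + 1))) :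
    (hessian (uF α) x)⁻¹ = Mz (zvec x)
      (uF α x ^ 3 / Tf α (rho x) + x 0 ^ 2 * α (rho x) * rho x * uF α x /
        (Tf α (rho x) * (1 + rho x * β (rho x))))
      (x 0 * uF α x / (Tf α (rho x) * (1 + rho x * β (rho x))))
      (uF α x / (α (rho x) * Tf α (rho x)))
      (-β (rho x) * uF α x / (α (rho x) * Tf α (rho x) * (1 + rho x * β (rho x)))) := by
  have hu := (uF_pos α x).ne'
  obtain ⟨hα, hβ⟩ := P.pos (rho x) (rho_nonneg x)
  have hT := (Tf_pos α (rho x)).ne'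
  have hM : 1 + rho x * β (rho x) ≠ 0 := by
    have := rho_nonneg x
    positivity
  obtain ⟨h1, h2, h3, h4, h5⟩ := inv_identities (x := x 0) (ρ := rho x) (β := β (rho x))
    hT hα.ne' hu hM rfl
  apply Matrix.inv_eq_right_inv
  rw [hessian_uF P x]
  exact Mz_mul_eq_one (zvec x) (sum_zvec x) h1 h2 h3 h4 h5

/-- `G(t) = α^k T^{k+1} (1 + tβ)` -/
noncomputable def Gfun (k : ℕ) (α β : ℝ → ℝ) (t : ℝ) : ℝ :=
  α t ^ k * Tf α t ^ (k + 1) * (1 + t * β t)

lemma Gfun_pos (P : Profile k δ α β β') {t : ℝ} (ht : 0 ≤ t) : 0 < Gfun k α β t := by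
  obtain ⟨hα, hβ⟩ := P.pos t ht
  have hT := Tf_pos α t
  unfold Gfun
  positivity

/-- `λ(t)` -/
noncomputable def lam (k : ℕ) (α β : ℝ → ℝ) (t : ℝ) : ℝ :=
  -(((k:ℝ) + 2) / 2) * (α t * (k + 1 + 2 * t * (α t + β t)) / (k + 2 * t * α t))

/-- `λ'(t)` -/
noncomputable def lam' (k : ℕ) (α β β' : ℝ → ℝ) (t : ℝ) : ℝ :=
  -(((k:ℝ) + 2) / 2) * (((1 / 2 * α t * (β t - α t) * (k + 1 + 2 * t * (α t + β t))
        + α t * (2 * (α t + β t) + 2 * t * (1 / 2 * α t * (β t - α t) + β' t)))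
          * (k + 2 * t * α t)
        - α t * (k + 1 + 2 * t * (α t + β t)) * (2 * α t + 2 * t * (1 / 2 * α t * (β t - α t))))
          / (k + 2 * t * α t) ^ 2)

lemma den_pos (P : Profile k δ α β β') {t : ℝ} (ht : 0 ≤ t) : 0 < (k:ℝ) + 2 * t * α t := by
  obtain ⟨hα, hβ⟩ := P.pos t ht
  have : (1:ℝ) ≤ k := by exact_mod_cast P.k1
  positivity

lemma hasDerivAt_lam (P : Profile k δ α β β') {t : ℝ} (ht : 0 ≤ t) :
    HasDerivAt (lam k α β) (lam' k α β β' t) t := by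
  have ht' : -δ < t := by linarith [P.δ_pos]
  have hd := (den_pos P ht).ne'
  have h1 := P.dα t ht'
  have h2 := P.dβ t ht'
  have h3 : HasDerivAt (fun s : ℝ => 2 * s) 2 t := by
    simpa using (hasDerivAt_id t).const_mul 2
  have h4 : HasDerivAt (fun s => (k:ℝ) + 1 + 2 * s * (α s + β s))
      (2 * (α t + β t) + 2 * t * (1 / 2 * α t * (β t - α t) + β' t)) t :=
    (h3.mul (h1.add h2)).const_add _
  have h5 : HasDerivAt (fun s => (k:ℝ) + 2 * s * α s)
      (2 * α t + 2 * t * (1 / 2 * α t * (β t - α t))) t := (h3.mul h1).const_add _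
  exact (((h1.mul h4).div h5 hd).const_mul _)

/-- `Ω(t) = G(t)^{-θ}` -/
noncomputable def Om (k : ℕ) (α β : ℝ → ℝ) (t : ℝ) : ℝ :=
  Gfun k α β t ^ (-(((k:ℝ) + 2) / ((k:ℝ) + 3)))

lemma hasDerivAt_Gfun (P : Profile k δ α β β') {t : ℝ} (ht : 0 ≤ t) :
    HasDerivAt (Gfun k α β) (Gfun k α β t * (((k:ℝ) + 3) / 2 *
      (α t * (k + 1 + 2 * t * (α t + β t)) / (k + 2 * t * α t)))) t := by
  have ht' : -δ < t := by linarith [P.δ_pos]
  have hd := (den_pos P ht).ne'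
  have h1 := P.dα t ht'
  have h2 := P.dβ t ht'
  have h3 := hasDerivAt_Tf P.cα t
  have h4 : HasDerivAt (fun s : ℝ => 1 + s * β s) (β t + t * β' t) t := by
    have := ((hasDerivAt_id t).mul h2).const_add 1
    simpa using this
  have h5 := ((h1.pow k).mul (h3.pow (k + 1))).mul h4
  have hα := (P.pos t ht).1
  have hT := Tf_pos α t
  have he := P.eq t ht
  have he2 : β t + t * β' t = 1 / 2 * ((1 + t * β t) *
    (-k * β t + α t + (k + 3) * α t * ((1 + 2 * t * β t) / (k + 2 * t * α t)))) := by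
    linarith
  obtain ⟨m, rfl⟩ : ∃ m, k = m + 1 := ⟨k - 1, by have := P.k1; omega⟩
  refine h5.congr_deriv ?_
  rw [he2]
  unfold Gfun
  simp only [Pi.mul_apply, Pi.pow_apply, Nat.add_sub_cancel]
  generalize α t = a at *
  generalize β t = b at *
  generalize Tf α t = T at *
  push_cast at *
  field_simp
  ring

lemma hasDerivAt_Om (P : Profile k δ α β β') {t : ℝ} (ht : 0 ≤ t) :
    HasDerivAt (Om k α β) (lam k α β t * Om k α β t) t := by
  have h1 := (hasDerivAt_Gfun P ht).rpow_const (p := -(((k:ℝ) + 2) / ((k:ℝ) + 3)))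
    (Or.inl (Gfun_pos P ht).ne')
  refine h1.congr_deriv ?_
  unfold Om lam
  rw [Real.rpow_sub_one (Gfun_pos P ht).ne']
  have hG := (Gfun_pos P ht).ne'
  have hk : (k:ℝ) + 3 ≠ 0 := by positivity
  generalize α t * (k + 1 + 2 * t * (α t + β t)) / (k + 2 * t * α t) = r
  generalize Gfun k α β t ^ (-(((k:ℝ) + 2) / ((k:ℝ) + 3))) = s
  field_simp

lemma wFun_eq (P : Profile k δ α β β') (x : EuclideanSpace ℝ (Fin (k + 1))) :
    wFun (uF α) x = Om k α β (rho x) * uF α x ^ (k + 2) := by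
  unfold wFun Om
  rw [det_uF P x]
  have hG := Gfun_pos P (rho_nonneg x)
  have hu := uF_pos α x
  have hG' : α (rho x) ^ k * Tf α (rho x) ^ (k + 1) *
      (1 + rho x * β (rho x)) = Gfun k α β (rho x) := rfl
  rw [hG']
  have hk : (k:ℝ) + 3 ≠ 0 := by positivity
  have hexp : -((((k + 1 : ℕ) : ℝ) + 1) / (((k + 1 : ℕ) : ℝ) + 2)) =
      -(((k:ℝ) + 2) / ((k:ℝ) + 3)) := by
    push_cast; congr 2 <;> ring
  rw [hexp, Real.div_rpow hG.le (by positivity), div_eq_mul_inv]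
  congr 1
  rw [Real.rpow_neg (by positivity), inv_inv, ← Real.rpow_natCast (uF α x) (k + 3),
    ← Real.rpow_mul hu.le, ← Real.rpow_natCast (uF α x) (k + 2)]
  congr 1
  push_cast
  field_simp

end Vale.Agent.P252
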