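import Mathlib
import Vale.Agent.Lib.P252.Dyn

/-!
Smoothness of the solution.
-/

open Filter Topology Set MeasureTheory
open scoped ContDiff

namespace Vale.Agent.P252

lemma H0_eq {k x A B : ℝ} (hk : 0 < k) (hd : 0 < k + 2 * x * A) :
    -(k + 2) * B + (2 * k + 3) / k * A + x * H0 k x A B =
      -2 * B + (1 + x * B) * (-k * B + A + (k + 3) * A * ((1 + 2 * x * B) / (k + 2 * x * A))) := by
  have hI : (k + 2 * x * A) * (k + 2 * x * A)⁻¹ = 1 := mul_inv_cancel₀ hd.ne'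
  unfold H0
  simp only [div_eq_mul_inv _ (k + 2 * x * A)]
  generalize (k + 2 * x * A)⁻¹ = I at *
  field_simp
  linear_combination (-(k + 3) * A) * hI

theorem exists_profile (k : ℕ) (hk : 9 ≤ k) : ∃ δ : ℝ, 0 < δ ∧ ∃ α β β' : ℝ → ℝ,
    Continuous α ∧
    ContDiffOn ℝ ∞ α (Ioi (-δ)) ∧ ContDiffOn ℝ ∞ β (Ioi (-δ)) ∧
    (∀ x, -δ < x → HasDerivAt α (1 / 2 * α x * (β x - α x)) x) ∧
    (∀ x, -δ < x → HasDerivAt β (β' x) x) ∧
    (∀ x, 0 ≤ x → 0 < α x ∧ 0 < β x) ∧
    (∀ x, 0 ≤ x → 2 * x * β' x = -2 * β x + (1 + x * β x) * (-k * β x + α x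
      + (k + 3) * α x * ((1 + 2 * x * β x) / (k + 2 * x * α x)))) := by
  have hk' : (9:ℝ) ≤ k := by exact_mod_cast hk
  have hk0 : (0:ℝ) < k := by linarith
  obtain ⟨α, β, β', D⟩ := exists_data k hk
  have hgood := good_of_data hk D
  have hc := coef_le hk'
  have hc0 : 0 < (2 * (k:ℝ) + 3) / k / (k + 2) := by positivity
  -- a neighbourhood of `0`
  have hnear : ∀ᶠ x in 𝓝 (0:ℝ), (0 < α x ∧ α x < 2) ∧ (0 < β x ∧ β x < 2) := by
    have ha := D.ca.continuousAt (x := 0)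
    have hb := D.cb.continuousAt (x := 0)
    have h1 : ∀ᶠ x in 𝓝 (0:ℝ), 0 < α x := ha.eventually (lt_mem_nhds (by rw [D.a0]; norm_num))
    have h2 : ∀ᶠ x in 𝓝 (0:ℝ), α x < 2 := ha.eventually (gt_mem_nhds (by rw [D.a0]; norm_num))
    have h3 : ∀ᶠ x in 𝓝 (0:ℝ), 0 < β x := hb.eventually (lt_mem_nhds (by rw [D.b0]; exact hc0))
    have h4 : ∀ᶠ x in 𝓝 (0:ℝ), β x < 2 := hb.eventually (gt_mem_nhds (by rw [D.b0]; linarith))
    filter_upwards [h1, h2, h3, h4] with x a b c d using ⟨⟨a, b⟩, ⟨c, d⟩⟩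
  obtain ⟨ε, hε, hball⟩ := Metric.eventually_nhds_iff.1 hnear
  set δ : ℝ := min ε 1 with hδ
  have hδ0 : 0 < δ := lt_min hε one_pos
  have hδ1 : δ ≤ 1 := min_le_right _ _
  have hδε : δ ≤ ε := min_le_left _ _
  have hreg : ∀ x, -δ < x → (0 < α x ∧ α x < 2) ∧ (0 < β x ∧ β x < 2) := by
    intro x hx
    rcases le_total 0 x with h | h
    · obtain ⟨g1, g2, g3, g4, g5⟩ := hgood x h
      exact ⟨⟨g1, g2⟩, ⟨g3, by linarith⟩⟩
    · apply hball
      rw [Real.dist_eq, sub_zero, abs_of_nonpos h]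
      linarith
  have hcla : ∀ x, -δ < x → cl (α x) = α x := fun x hx =>
    cl_of_mem (hreg x hx).1.1.le (hreg x hx).1.2.le
  have hclb : ∀ x, -δ < x → cl (β x) = β x := fun x hx =>
    cl_of_mem (hreg x hx).2.1.le (hreg x hx).2.2.le
  have hcr : ∀ x, -δ < x → cr x = x := fun x hx => cr_of_ge (by linarith)
  have hda : ∀ x, -δ < x → HasDerivAt α (1 / 2 * α x * (β x - α x)) x := fun x hx => by
    have := D.da x
    rw [hcla x hx, hclb x hx] at this
    exact this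
  have hden : ∀ x, -δ < x → 0 < (k:ℝ) + 2 * x * α x := fun x hx => by
    have := den_ge (k := (k:ℝ)) (R := x) (A := α x) hk' (by linarith) (hreg x hx).1.1.le
      (hreg x hx).1.2.le
    linarith
  obtain ⟨G, hG, hrep⟩ := D.repr
  have hG' : ∀ x, -δ < x → HasDerivAt G (H0 k x (α x) (β x)) x := fun x hx => by
    have := hG x
    rw [hcla x hx, hclb x hx, hcr x hx] at this
    exact this
  have hsm : ∀ n : ℕ, ContDiffOn ℝ n α (Ioi (-δ)) ∧ ContDiffOn ℝ n β (Ioi (-δ)) := by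
    intro n
    induction n with
    | zero =>
      simp only [Nat.cast_zero, contDiffOn_zero]
      exact ⟨D.ca.continuousOn, D.cb.continuousOn⟩
    | succ n ih =>
      obtain ⟨ia, ib⟩ := ih
      have hcast : ((n + 1 : ℕ) : WithTop ℕ∞) = (n : WithTop ℕ∞) + 1 := by norm_cast
      have ha1 : ContDiffOn ℝ ((n + 1 : ℕ) : WithTop ℕ∞) α (Ioi (-δ)) := by
        rw [hcast, contDiffOn_succ_iff_deriv_of_isOpen isOpen_Ioi]
        refine ⟨fun x hx => (hda x hx).differentiableAt.differentiableWithinAt, ?_, ?_⟩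
        · intro h; exact absurd h (by simp)
        · have : ContDiffOn ℝ n (fun x => 1 / 2 * α x * (β x - α x)) (Ioi (-δ)) := by
            fun_prop
          exact this.congr fun x hx => (hda x hx).deriv
      have hHs : ContDiffOn ℝ n (fun x => H0 k x (α x) (β x)) (Ioi (-δ)) := by
        unfold H0
        have hd : ContDiffOn ℝ n (fun x => (k:ℝ) + 2 * x * α x) (Ioi (-δ)) := by fun_prop
        have hne : ∀ x ∈ Ioi (-δ), (k:ℝ) + 2 * x * α x ≠ 0 := fun x hx => (hden x hx).ne'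
        have h1 : ContDiffOn ℝ n (fun x => ((k:ℝ) + 2 * x * α x)⁻¹) (Ioi (-δ)) := hd.inv hne
        have h2 : ContDiffOn ℝ n (fun x => α x * (1 + 2 * x * β x) / ((k:ℝ) + 2 * x * α x))
            (Ioi (-δ)) := by
          refine ContDiffOn.div ?_ hd hne
          fun_prop
        fun_prop
      have hG1 : ContDiffOn ℝ ((n + 1 : ℕ) : WithTop ℕ∞) G (Ioi (-δ)) := by
        rw [hcast, contDiffOn_succ_iff_deriv_of_isOpen isOpen_Ioi]
        refine ⟨fun x hx => (hG' x hx).differentiableAt.differentiableWithinAt, ?_, ?_⟩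
        · intro h; exact absurd h (by simp)
        · exact hHs.congr fun x hx => (hG' x hx).deriv
      refine ⟨ha1, ?_⟩
      have h3 : ContDiffOn ℝ ((n + 1 : ℕ) : WithTop ℕ∞)
          (fun x => (2 * (k:ℝ) + 3) / k * α x - (k + 2) / 2 * G x) (Ioi (-δ)) := by
        fun_prop
      have h4 := contDiffOn_avg hδ0 (n + 1) (k + 1) _ h3
      have h5 : ContDiffOn ℝ ((n + 1 : ℕ) : WithTop ℕ∞) (fun x => 1 / 2 * G x +
          avg (k + 1) (fun x => (2 * (k:ℝ) + 3) / k * α x - (k + 2) / 2 * G x) x) (Ioi (-δ)) := by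
        fun_prop
      exact h5.congr fun x _ => hrep x
  refine ⟨δ, hδ0, α, β, β', D.ca, contDiffOn_infty.2 fun n => (hsm n).1,
    contDiffOn_infty.2 fun n => (hsm n).2, hda, fun x _ => D.db x, ?_, ?_⟩
  · intro x hx
    have := hgood x hx
    exact ⟨this.1, this.2.2.1⟩
  · intro x hx
    have hx' : -δ < x := by linarith
    have h1 := D.eqb x
    rw [hcla x hx', hclb x hx', hcr x hx'] at h1
    rw [h1, H0_eq hk0 (hden x hx')]

end Vale.Agent.P252
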