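import Mathlib
import Vale.Agent.Lib.P252.Pde
import Vale.Agent.Lib.P252.Smooth

/-!
The affine maximal equation for `u = sqrt(x₀² + T(ρ))`.
-/

open Set MeasureTheory
open scoped ContDiff Matrix

namespace Vale.Agent.P252

variable {k : ℕ} {δ : ℝ} {α β β' : ℝ → ℝ}

lemma DD_w (P : Profile k δ α β β') (x : EuclideanSpace ℝ (Fin (k + 1))) :
    DD (fun y => Om k α β (rho y) * uF α y ^ (k + 2)) x
      (((k:ℝ) + 2) * x 0 * Om k α β (rho x) * uF α x ^ k)
      (Om k α β (rho x) * uF α x ^ k * (lam k α β (rho x) * uF α x ^ 2 +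
        ((k:ℝ) + 2) / 2 * (α (rho x) * Tf α (rho x)))) := by
  have hu := (uF_pos α x).ne'
  have h1 := DD.comp_rho (hasDerivAt_Om P (rho_nonneg x))
  have h2 := (DD_uF P x).pow (k + 2)
  refine (h1.mul h2).congr ?_ ?_
  · have : k + 2 - 1 = k + 1 := by omega
    rw [this]
    push_cast
    field_simp
    ring
  · have : k + 2 - 1 = k + 1 := by omega
    rw [this]
    push_cast
    field_simp
    ring

lemma DD_Pw (P : Profile k δ α β β') (x : EuclideanSpace ℝ (Fin (k + 1))) :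
    DD (fun x => ((k:ℝ) + 2) * x 0 * Om k α β (rho x) * uF α x ^ k) x
      ((Om k α β (rho x) * uF α x ^ k) * (((k:ℝ) + 2) * (1 + k * (x 0 ^ 2 / uF α x ^ 2))))
      ((Om k α β (rho x) * uF α x ^ k) * (((k:ℝ) + 2) * x 0 *
        (lam k α β (rho x) + k / 2 * (α (rho x) * Tf α (rho x) / uF α x ^ 2)))) := by
  have hu := (uF_pos α x).ne'
  have h1 := DD.comp_rho (hasDerivAt_Om P (rho_nonneg x))
  have h2 := (DD_uF P x).pow k
  have h3 := (((DD.fst x).const_mul ((k:ℝ) + 2)).mul h1).mul h2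
  obtain ⟨m, rfl⟩ : ∃ m, k = m + 1 := ⟨k - 1, by have := P.k1; omega⟩
  refine h3.congr ?_ ?_
  · simp only [Nat.add_sub_cancel]
    push_cast
    field_simp
    ring
  · simp only [Nat.add_sub_cancel]
    push_cast
    field_simp
    ring

lemma DD_Qw (P : Profile k δ α β β') (x : EuclideanSpace ℝ (Fin (k + 1))) :
    DD (fun x => Om k α β (rho x) * uF α x ^ k * (lam k α β (rho x) * uF α x ^ 2 +
        ((k:ℝ) + 2) / 2 * (α (rho x) * Tf α (rho x)))) x
      ((Om k α β (rho x) * uF α x ^ k) * (((k:ℝ) + 2) * x 0 *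
        (lam k α β (rho x) + k / 2 * (α (rho x) * Tf α (rho x) / uF α x ^ 2))))
      ((Om k α β (rho x) * uF α x ^ k) *
        ((lam k α β (rho x) ^ 2 + lam' k α β β' (rho x)) * uF α x ^ 2
          + ((k:ℝ) + 2) * lam k α β (rho x) * α (rho x) * Tf α (rho x)
          + ((k:ℝ) + 2) / 4 * (α (rho x) * (α (rho x) + β (rho x)) * Tf α (rho x))
          + ((k:ℝ) + 2) * k / 4 * (α (rho x) ^ 2 * Tf α (rho x) ^ 2 / uF α x ^ 2))) := by
  have hu := (uF_pos α x).ne'
  have hρ : -δ < rho x := by linarith [rho_nonneg x, P.δ_pos]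
  have h1 := DD.comp_rho (hasDerivAt_Om P (rho_nonneg x))
  have h2 := (DD_uF P x).pow k
  have h4 := DD.comp_rho (hasDerivAt_lam P (rho_nonneg x))
  have h5 := (DD_uF P x).pow 2
  have h6 := DD.comp_rho ((P.dα (rho x) hρ).mul (hasDerivAt_Tf P.cα (rho x)))
  have h7 := (h1.mul h2).mul ((h4.mul h5).add (h6.const_mul (((k:ℝ) + 2) / 2)))
  obtain ⟨m, rfl⟩ : ∃ m, k = m + 1 := ⟨k - 1, by have := P.k1; omega⟩
  refine h7.congr ?_ ?_
  · simp only [Nat.add_sub_cancel, Pi.mul_apply]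
    push_cast
    field_simp
    ring
  · simp only [Nat.add_sub_cancel, Pi.mul_apply]
    push_cast
    field_simp
    ring

lemma hessian_wFun (P : Profile k δ α β β') (x : EuclideanSpace ℝ (Fin (k + 1))) :
    hessian (wFun (uF α)) x = Mz (zvec x)
      ((Om k α β (rho x) * uF α x ^ k) * (((k:ℝ) + 2) * (1 + k * (x 0 ^ 2 / uF α x ^ 2))))
      (2 * ((Om k α β (rho x) * uF α x ^ k) * (((k:ℝ) + 2) * x 0 *
        (lam k α β (rho x) + k / 2 * (α (rho x) * Tf α (rho x) / uF α x ^ 2)))))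
      (2 * (Om k α β (rho x) * uF α x ^ k * (lam k α β (rho x) * uF α x ^ 2 +
        ((k:ℝ) + 2) / 2 * (α (rho x) * Tf α (rho x)))))
      (4 * ((Om k α β (rho x) * uF α x ^ k) *
        ((lam k α β (rho x) ^ 2 + lam' k α β β' (rho x)) * uF α x ^ 2
          + ((k:ℝ) + 2) * lam k α β (rho x) * α (rho x) * Tf α (rho x)
          + ((k:ℝ) + 2) / 4 * (α (rho x) * (α (rho x) + β (rho x)) * Tf α (rho x))
          + ((k:ℝ) + 2) * k / 4 * (α (rho x) ^ 2 * Tf α (rho x) ^ 2 / uF α x ^ 2)))) := by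
  have hw : wFun (uF (k := k) α) = fun y => Om k α β (rho y) * uF α y ^ (k + 2) :=
    funext fun y => wFun_eq P y
  rw [hw]
  exact hessian_eq (fun y => DD_w P y) (DD_Pw P x) (DD_Qw P x)

lemma solvesAM_uF (P : Profile k δ α β β') : SolvesAM (uF (k := k) α) := by
  intro x
  have hu := (uF_pos α x).ne'
  obtain ⟨hα, hβ⟩ := P.pos (rho x) (rho_nonneg x)
  have hT := (Tf_pos α (rho x)).ne'
  have hM : 1 + rho x * β (rho x) ≠ 0 := by
    have := rho_nonneg x
    positivity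
  have h1 : ∑ i, ∑ j, (hessian (uF α) x)⁻¹ i j * hessian (wFun (uF α)) x i j = 0 := by
    rw [inv_uF P x, hessian_wFun P x, Mz_pair (zvec x) (sum_zvec x)]
    have hstar := star_identity (k := (k:ℝ)) (den_pos P (rho_nonneg x)).ne'
      (P.eq (rho x) (rho_nonneg x))
    exact sum_identity (K := (k:ℝ)) (T := Tf α (rho x)) (α := α (rho x)) (β := β (rho x))
      (ρ := rho x) (l := lam k α β (rho x)) (l' := lam' k α β β' (rho x)) (x := x 0)
      (u := uF α x) (OU := Om k α β (rho x) * uF α x ^ k) (M := 1 + rho x * β (rho x))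
      (by rw [uF_sq]; ring) hT hα.ne' hu hM rfl hstar
  unfold cofactorMatrix
  simp only [Matrix.smul_apply, smul_eq_mul, mul_assoc]
  simp only [← Finset.mul_sum]
  rw [h1, mul_zero]

lemma uF_axis (α : ℝ → ℝ) (s : ℝ) :
    uF (k := k) α (EuclideanSpace.single 0 s) = Real.sqrt (s ^ 2 + 1) := by
  have : rho (k := k) (EuclideanSpace.single 0 s) = 0 := by
    unfold rho
    apply Finset.sum_eq_zero
    intro i _
    simp
  unfold uF
  rw [this, Tf_zero]
  simp

lemma uF_not_quadratic (α : ℝ → ℝ) :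
    ¬ ∃ (A : Matrix (Fin (k + 1)) (Fin (k + 1)) ℝ) (b : Fin (k + 1) → ℝ) (c : ℝ),
      ∀ x, uF (k := k) α x = (∑ i, ∑ j, A i j * x i * x j) / 2 + ∑ i, b i * x i + c := by
  rintro ⟨A, b, c, h⟩
  have key : ∀ s : ℝ, Real.sqrt (s ^ 2 + 1) = A 0 0 * s ^ 2 / 2 + b 0 * s + c := by
    intro s
    have h1 := h (EuclideanSpace.single 0 s)
    rw [uF_axis] at h1
    rw [h1]
    have hb : ∑ i, b i * (EuclideanSpace.single (0 : Fin (k + 1)) s :
        EuclideanSpace ℝ (Fin (k + 1))) i = b 0 * s := by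
      rw [Finset.sum_eq_single 0]
      · simp
      · intro i _ hi
        simp [hi]
      · intro h; exact absurd (Finset.mem_univ _) h
    have hA : ∑ i, ∑ j, A i j * (EuclideanSpace.single (0 : Fin (k + 1)) s :
        EuclideanSpace ℝ (Fin (k + 1))) i * (EuclideanSpace.single (0 : Fin (k + 1)) s :
        EuclideanSpace ℝ (Fin (k + 1))) j = A 0 0 * s ^ 2 := by
      rw [Finset.sum_eq_single 0]
      · rw [Finset.sum_eq_single 0]
        · simp; ring
        · intro i _ hi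
          simp [hi]
        · intro h; exact absurd (Finset.mem_univ _) h
      · intro i _ hi
        apply Finset.sum_eq_zero
        intro j _
        simp [hi]
      · intro h; exact absurd (Finset.mem_univ _) h
    rw [hb, hA]
  have h0 := key 0
  have h1 := key 1
  have h2 := key (-1)
  have h3 := key 2
  have e0 : Real.sqrt ((0:ℝ) ^ 2 + 1) = 1 := by norm_num
  have e1 : Real.sqrt ((-1:ℝ) ^ 2 + 1) = Real.sqrt ((1:ℝ) ^ 2 + 1) := by norm_num
  rw [e0] at h0
  rw [e1] at h2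
  set p := Real.sqrt ((1:ℝ) ^ 2 + 1) with hp
  set q := Real.sqrt ((2:ℝ) ^ 2 + 1) with hq
  have hp2 : p ^ 2 = 2 := by rw [hp, Real.sq_sqrt (by norm_num)]; norm_num
  have hq2 : q ^ 2 = 5 := by rw [hq, Real.sq_sqrt (by norm_num)]; norm_num
  have hb0 : b 0 = 0 := by linarith
  have hc : c = 1 := by linarith
  have hq' : q = 4 * p - 3 := by
    rw [hb0] at h1 h3
    rw [hc] at h1 h3
    linarith
  have hp' : 24 * p = 36 := by
    rw [hq'] at hq2
    nlinarith
  have : p = 3 / 2 := by linarith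
  rw [this] at hp2
  norm_num at hp2

/-- main existence statement in dimension `k + 1` -/
theorem exists_entire (k : ℕ) (hk : 9 ≤ k) :
    ∃ u : EuclideanSpace ℝ (Fin (k + 1)) → ℝ,
      ContDiff ℝ ∞ u ∧
      (∀ x, (hessian u x).PosDef) ∧
      SolvesAM u ∧
      ¬ ∃ (A : Matrix (Fin (k + 1)) (Fin (k + 1)) ℝ) (b : Fin (k + 1) → ℝ) (c : ℝ),
          ∀ x, u x = (∑ i, ∑ j, A i j * x i * x j) / 2 + ∑ i, b i * x i + c := by
  obtain ⟨δ, hδ, α, β, β', h1, h2, h3, h4, h5, h6, h7⟩ := exists_profile k hk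
  have P : Profile k δ α β β' :=
    ⟨by omega, hδ, h1, h2, h3, h4, h5, h6, h7⟩
  exact ⟨uF α, contDiff_uF P, posDef_uF P, solvesAM_uF P, uF_not_quadratic α⟩

end Vale.Agent.P252
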